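import Vale.Agent.P128.Bridge.Reg.Weyl
import Vale.Agent.P128.Bridge.Sobolev

/-!
# P128 bridge R0, part 1: regularisation and the chain rule for weak gradients

Regularisations converge in `L¹` and commute with weak gradients, so composition with a `C¹`
function of bounded derivative is allowed.
-/

open MeasureTheory Set Metric Filter
open scoped ENNReal NNReal Topology Real RealInnerProductSpace ContDiff

noncomputable section

namespace Vale.Agent.P128.Bridge

open RegW

/-- The dyadic radii. -/
def molRad (n : ℕ) : ℝ := (1 / 2) ^ n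

theorem molRad_pos (n : ℕ) : 0 < molRad n := by unfold molRad; positivity

theorem tendsto_molRad : Tendsto molRad atTop (𝓝[>] 0) := by
  refine tendsto_nhdsWithin_iff.2 ⟨?_, Eventually.of_forall molRad_pos⟩
  exact tendsto_pow_atTop_nhds_zero_of_lt_one (by norm_num) (by norm_num)

/-- The `L¹` norms of the mollifiers are bounded. -/
theorem exists_integral_abs_kern : ∃ C : ℝ, 0 ≤ C ∧ ∀ r : ℝ, 0 < r →
    Integrable (kern r) ∧ ∫ x, |kern r x| ≤ C := by
  obtain ⟨M, hM⟩ := exists_abs_rho_le
  have hM0 : 0 ≤ M := (abs_nonneg _).trans (hM 0 le_rfl)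
  refine ⟨M, hM0, fun r hr => ?_⟩
  have hi : Integrable (kern r) :=
    (contDiff_kern r).continuous.integrable_of_hasCompactSupport (hasCompactSupport_kern hr)
  refine ⟨hi, ?_⟩
  calc ∫ x, |kern r x| ≤ ∫ x, (closedBall (0 : ℂ) r).indicator (fun _ => M / (π * r ^ 2)) x := by
        refine integral_mono hi.abs ((integrable_indicator_iff measurableSet_closedBall).2
          (integrableOn_const measure_closedBall_lt_top.ne)) fun x => ?_
        by_cases hx : x ∈ closedBall (0 : ℂ) r
        · rw [indicator_of_mem hx, kern, abs_div, abs_of_pos (show 0 < π * r ^ 2 by positivity)]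
          gcongr
          exact hM _ (by positivity)
        · rw [indicator_of_notMem hx, kern_eq_zero hr (by simpa using hx), abs_zero]
    _ = M := by
        rw [integral_indicator measurableSet_closedBall, setIntegral_const, smul_eq_mul,
          measureReal_def, Complex.volume_closedBall, ENNReal.toReal_mul, ENNReal.toReal_pow,
          ENNReal.toReal_ofReal hr.le, ENNReal.coe_toReal, NNReal.coe_real_pi]
        field_simp

theorem integrable_mul_kern {r : ℝ} (hr : 0 < r) {f : ℂ → ℝ} (hf : Integrable f) (x : ℂ) :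
    Integrable fun y => f y * kern r (y - x) := by
  obtain ⟨C, hC⟩ := ((contDiff_kern r).continuous).bounded_above_of_compact_support
    (hasCompactSupport_kern hr)
  exact hf.mul_bdd (c := C) (((contDiff_kern r).continuous.comp
    (continuous_id.sub continuous_const)).aestronglyMeasurable) (Eventually.of_forall fun y => hC _)

theorem moll_sub {r : ℝ} (hr : 0 < r) {f h : ℂ → ℝ} (hf : Integrable f) (hh : Integrable h)
    (x : ℂ) : moll r (fun y => f y - h y) x = moll r f x - moll r h x := by
  simp only [moll, sub_mul]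
  exact integral_sub (integrable_mul_kern hr hf x) (integrable_mul_kern hr hh x)

theorem moll_congr {r : ℝ} (hr : 0 < r) {f h : ℂ → ℝ} {x : ℂ}
    (hfh : ∀ᵐ y, y ∈ closedBall x r → f y = h y) : moll r f x = moll r h x := by
  refine integral_congr_ae ?_
  filter_upwards [hfh] with y hy
  by_cases hyx : y ∈ closedBall x r
  · rw [hy hyx]
  · rw [kern_eq_zero hr (by simpa [dist_eq_norm] using hyx)]; simp

/-- Regularisation is bounded on `L¹`. -/
theorem integrable_moll {r : ℝ} (hr : 0 < r) {f : ℂ → ℝ} (hf : Integrable f) :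
    Integrable (moll r f) ∧ ∫ x, |moll r f x| ≤ (∫ y, |f y|) * ∫ x, |kern r x| := by
  have hk : Integrable (kern r) :=
    (contDiff_kern r).continuous.integrable_of_hasCompactSupport (hasCompactSupport_kern hr)
  have he : moll r f =
      MeasureTheory.convolution f (kern r) (ContinuousLinearMap.mul ℝ ℝ) volume := by
    funext x
    simp [moll, convolution_def, kern_comm r x]
  have hle : ∀ x, |moll r f x| ≤
      MeasureTheory.convolution (fun y => |f y|) (fun y => |kern r y|)
        (ContinuousLinearMap.mul ℝ ℝ) volume x := fun x => by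
    rw [moll, convolution_def]
    refine (abs_integral_le_integral_abs).trans (le_of_eq ?_)
    simp [abs_mul, kern_comm r x]
  have hi : Integrable (moll r f) := he ▸ hf.integrable_convolution _ hk
  refine ⟨hi, (integral_mono hi.abs (hf.abs.integrable_convolution _ hk.abs) hle).trans (le_of_eq ?_)⟩
  rw [integral_convolution _ hf.abs hk.abs]
  simp

/-- Regularisations converge in `L¹`. -/
theorem tendsto_integral_moll {f : ℂ → ℝ} (hf : Integrable f) :
    Tendsto (fun r => ∫ x, |moll r f x - f x|) (𝓝[>] 0) (𝓝 0) := by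
  obtain ⟨C, hC0, hC⟩ := exists_integral_abs_kern
  rw [Metric.tendsto_nhds]
  intro ε hε
  obtain ⟨h, hhc, hfh, hh, hhi⟩ :=
    hf.exists_hasCompactSupport_integral_sub_le (show 0 < ε / (2 * (C + 1)) by positivity)
  simp only [Real.norm_eq_abs] at hfh
  obtain ⟨⟨M, hM⟩, hlim⟩ := moll_test hh hhc
  obtain ⟨B, hB⟩ := hh.bounded_above_of_compact_support hhc
  obtain ⟨S, hS⟩ := hhc.isCompact.isBounded.subset_closedBall (0 : ℂ)
  have hsup : ∀ x, S + 1 < ‖x‖ → h x = 0 := fun x hx => image_eq_zero_of_notMem_tsupport fun h' => by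
    have := hS h'
    rw [mem_closedBall_zero_iff] at this
    linarith
  have hlim2 : Tendsto (fun r => ∫ x, |moll r h x - h x|) (𝓝[>] 0) (𝓝 0) := by
    suffices h' : Tendsto (fun r => ∫ x, |moll r h x - h x|) (𝓝[>] 0) (𝓝 (∫ _ : ℂ, (0 : ℝ))) by
      simpa using h'
    refine tendsto_integral_filter_of_dominated_convergence
      ((closedBall (0 : ℂ) (S + 1)).indicator fun _ => M + B) ?_ ?_
      ((integrable_indicator_iff measurableSet_closedBall).2
        (integrableOn_const measure_closedBall_lt_top.ne)) ?_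
    · filter_upwards [self_mem_nhdsWithin] with r hr
      exact ((integrable_moll hr hhi).1.sub hhi).abs.aestronglyMeasurable
    · filter_upwards [Ioc_mem_nhdsGT one_pos] with r hr
      refine Eventually.of_forall fun x => ?_
      rw [Real.norm_eq_abs, abs_abs]
      by_cases hx : x ∈ closedBall (0 : ℂ) (S + 1)
      · rw [indicator_of_mem hx]
        exact (abs_sub _ _).trans (add_le_add (hM r hr.1 x) (hB x))
      · rw [indicator_of_notMem hx]
        rw [mem_closedBall_zero_iff, not_le] at hx
        have h0 : moll r h x = 0 := by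
          refine integral_eq_zero_of_ae (Eventually.of_forall fun y => ?_)
          by_cases hy : y ∈ tsupport h
          · have := hS hy
            rw [mem_closedBall_zero_iff] at this
            show h y * kern r (y - x) = 0
            rw [kern_eq_zero hr.1 (by linarith [norm_sub_norm_le x y, norm_sub_rev x y, hr.2]), mul_zero]
          · simp [image_eq_zero_of_notMem_tsupport hy]
        simp [h0, hsup x hx]
    · exact Eventually.of_forall fun x => by
        simpa using ((hlim x).sub_const (h x)).abs
  have he2 : 0 < ε / 2 := half_pos hε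
  filter_upwards [hlim2.eventually_lt_const he2, self_mem_nhdsWithin] with r hr1 hr
  rw [Real.dist_eq, sub_zero, abs_of_nonneg (integral_nonneg fun x => abs_nonneg _)]
  obtain ⟨h1, h2⟩ := integrable_moll hr (hf.sub hhi)
  have hpt : ∀ x, |moll r f x - f x| ≤
      |moll r (f - h) x| + (|moll r h x - h x| + |f x - h x|) := fun x => by
    have e : moll r (f - h) x = moll r f x - moll r h x := moll_sub hr hf hhi x
    rw [e]
    have := abs_sub_le (moll r f x) (moll r h x) (f x)
    have := abs_sub_le (moll r h x) (h x) (f x)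
    rw [abs_sub_comm (h x)] at this
    linarith
  have i1 := ((integrable_moll hr hhi).1.sub hhi).abs
  have i2 := (hf.sub hhi).abs
  have := integral_mono (((integrable_moll hr hf).1.sub hf).abs) (h1.abs.add (i1.add i2)) hpt
  rw [integral_add' h1.abs (i1.add i2), integral_add' i1 i2] at this
  simp only [Pi.sub_apply] at this h2
  have hb : (∫ y, |f y - h y|) * ∫ x, |kern r x| ≤ ε / (2 * (C + 1)) * C :=
    mul_le_mul hfh (hC r hr).2 (integral_nonneg fun x => abs_nonneg _) (by positivity)
  have hc : ε / (2 * (C + 1)) * C + ε / (2 * (C + 1)) = ε / 2 := by field_simp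
  linarith

/-- A sequence converging in `L¹` converges almost everywhere along a subsequence. -/
theorem exists_subseq_ae {a : ℕ → ℂ → ℝ} {f : ℂ → ℝ} (ha : ∀ n, Integrable fun x => a n x - f x)
    (h : Tendsto (fun n => ∫ x, |a n x - f x|) atTop (𝓝 0)) :
    ∃ φ : ℕ → ℕ, StrictMono φ ∧ ∀ᵐ x, Tendsto (fun n => a (φ n) x) atTop (𝓝 (f x)) := by
  obtain ⟨φ, hφ, hφb⟩ := extraction_forall_of_eventually
    fun n => h.eventually_lt_const (show (0 : ℝ) < (1 / 2) ^ n by positivity)
  refine ⟨φ, hφ, ?_⟩
  have hfin : ∫⁻ x, ∑' n, ENNReal.ofReal |a (φ n) x - f x| ≠ ⊤ := by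
    rw [lintegral_tsum fun n => (ha _).abs.1.aemeasurable.ennreal_ofReal]
    refine ne_top_of_le_ne_top (b := ∑' n : ℕ, (2⁻¹ : ℝ≥0∞) ^ n)
      (by rw [ENNReal.tsum_geometric]; simp) (ENNReal.tsum_le_tsum fun n => ?_)
    rw [← ofReal_integral_eq_lintegral_ofReal (ha _).abs
      (Eventually.of_forall fun _ => abs_nonneg _)]
    refine (ENNReal.ofReal_le_ofReal (hφb n).le).trans (le_of_eq ?_)
    rw [ENNReal.ofReal_pow (by norm_num), one_div, ENNReal.ofReal_inv_of_pos two_pos,
      ENNReal.ofReal_ofNat]
  filter_upwards [ae_lt_top' (AEMeasurable.tsum fun n =>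
    (ha _).abs.1.aemeasurable.ennreal_ofReal) hfin] with x hx
  have h0 := ENNReal.tendsto_atTop_zero_of_tsum_ne_top hx.ne
  rw [tendsto_iff_norm_sub_tendsto_zero]
  have h1 := (ENNReal.tendsto_toReal ENNReal.zero_ne_top).comp h0
  simpa [Function.comp_def, ENNReal.toReal_ofReal (abs_nonneg _)] using h1

/-- Regularisation commutes with weak gradients. -/
theorem fderiv_moll {U : Set ℂ} {w : ℂ → ℝ} {G : ℂ → ℂ} (h : IsSobolevOn U w G) {C : Set ℂ}
    (hC : IsCompact C) (hCU : C ⊆ U) {r : ℝ} (hr : 0 < r) {x : ℂ} (hx : closedBall x r ⊆ C)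
    (e : ℂ) :
    fderiv ℝ (moll r (C.indicator w)) x e = moll r (C.indicator fun y => ⟪G y, e⟫) x := by
  have hf : Integrable (C.indicator w) := (integrable_indicator_iff hC.measurableSet).2
    (h.1.integrableOn_compact_subset hCU hC)
  have he : moll r (C.indicator w) =
      MeasureTheory.convolution (C.indicator w) (kern r) (ContinuousLinearMap.mul ℝ ℝ) volume := by
    funext x
    simp [moll, convolution_def, kern_comm r x]
  have hd := (hasCompactSupport_kern hr).hasFDerivAt_convolution_right
    (ContinuousLinearMap.mul ℝ ℝ) hf.locallyIntegrable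
    ((contDiff_kern r).of_le (by simp) : ContDiff ℝ 1 (kern r)) x
  rw [← he] at hd
  rw [hd.fderiv, convolution_precompR_apply _ hf.locallyIntegrable
    ((hasCompactSupport_kern hr).fderiv ℝ) ((contDiff_kern r).continuous_fderiv (by simp))]
  set φ : ℂ → ℝ := fun y => kern r (x - y) with hφ
  have hφd : ContDiff ℝ ((⊤ : ℕ∞) : WithTop ℕ∞) φ :=
    (contDiff_kern r).comp (contDiff_const.sub contDiff_id)
  have hφ0 : ∀ y ∉ closedBall x r, φ y = 0 := fun y hy => kern_eq_zero hr (by
    rw [mem_closedBall, not_le, dist_eq_norm, norm_sub_rev] at hy; exact hy)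
  have hφt : tsupport φ ⊆ closedBall x r := closure_minimal
    (fun y hy => by_contra fun h' => hy (hφ0 y h')) isClosed_closedBall
  have hw := h.2.2 φ hφd (HasCompactSupport.intro (isCompact_closedBall x r) hφ0)
    (hφt.trans (hx.trans hCU)) e
  have hder : ∀ y, fderiv ℝ φ y e = -fderiv ℝ (kern r) (x - y) e := fun y => by
    have : HasFDerivAt φ ((fderiv ℝ (kern r) (x - y)).comp (-ContinuousLinearMap.id ℝ ℂ)) y :=
      ((contDiff_kern r).differentiable (by simp) _).hasFDerivAt.comp y
        ((hasFDerivAt_id y).const_sub x)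
    rw [this.fderiv]; simp
  have e1 : ∫ y, w y * fderiv ℝ φ y e =
      -∫ y, C.indicator w y * fderiv ℝ (kern r) (x - y) e := by
    rw [← integral_neg]
    refine integral_congr_ae (Eventually.of_forall fun y => ?_)
    by_cases hy : y ∈ C
    · simp [indicator_of_mem hy, hder]
    · simp [indicator_of_notMem hy,
        fderiv_of_notMem_tsupport ℝ fun h' => hy (hx (hφt h'))]
  have e2 : ∫ y, ⟪G y, e⟫ * φ y = moll r (C.indicator fun y => ⟪G y, e⟫) x := by
    refine integral_congr_ae (Eventually.of_forall fun y => ?_)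
    simp only [hφ, kern_comm r x y]
    by_cases hy : y ∈ C
    · rw [indicator_of_mem hy]
    · have := hφ0 y fun h' => hy (hx h')
      rw [hφ] at this
      simp only [kern_comm r x y] at this
      simp [indicator_of_notMem hy, this]
  rw [e1, e2, neg_inj] at hw
  rw [← hw, convolution_def]
  simp

/-- The chain rule with a `C¹` function of derivative at most one. -/
theorem IsSobolevOn.comp {U : Set ℂ} {w : ℂ → ℝ} {G : ℂ → ℂ} (hU : IsOpen U)
    (h : IsSobolevOn U w G) {ψ : ℝ → ℝ} (hψ : ContDiff ℝ 1 ψ) (hψ1 : ∀ t, |deriv ψ t| ≤ 1) :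
    IsSobolevOn U (fun x => ψ (w x)) (fun x => deriv ψ (w x) • G x) := by
  have hψd : ∀ t, HasDerivAt ψ (deriv ψ t) t :=
    fun t => (hψ.differentiable one_ne_zero t).hasDerivAt
  have hψc : Continuous (deriv ψ) := hψ.continuous_deriv_one
  have hlip : ∀ s t, |ψ s - ψ t| ≤ |s - t| := fun s t => by
    have := Convex.norm_image_sub_le_of_norm_hasDerivWithin_le (f := ψ) (C := 1)
      (fun y _ => (hψd y).hasDerivWithinAt) (fun y _ => by simpa using hψ1 y) convex_univ
      (mem_univ t) (mem_univ s)
    simpa using this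
  have hmeas : ∀ {S : Set ℂ}, IsCompact S → S ⊆ U →
      AEStronglyMeasurable w (volume.restrict S) := fun hS hSU =>
    (h.1.integrableOn_compact_subset hSU hS).1
  refine ⟨?_, ?_, fun φ hφ hφc hφs e => ?_⟩
  · rw [locallyIntegrableOn_iff hU.isLocallyClosed]
    intro S hSU hS
    refine Integrable.mono' (g := fun x => |w x| + |ψ 0|)
      ((h.1.integrableOn_compact_subset hSU hS).abs.add
        (integrableOn_const hS.measure_lt_top.ne))
      (hψ.continuous.comp_aestronglyMeasurable (hmeas hS hSU)) (Eventually.of_forall fun x => ?_)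
    have := hlip (w x) 0
    rw [sub_zero] at this
    rw [Real.norm_eq_abs]
    linarith [abs_sub_abs_le_abs_sub (ψ (w x)) (ψ 0)]
  · rw [locallyIntegrableOn_iff hU.isLocallyClosed]
    intro S hSU hS
    refine Integrable.mono' (g := fun x => ‖G x‖) (h.2.1.integrableOn_compact_subset hSU hS).norm
      ((hψc.comp_aestronglyMeasurable (hmeas hS hSU)).smul
        (h.2.1.integrableOn_compact_subset hSU hS).1) (Eventually.of_forall fun x => ?_)
    rw [norm_smul]
    exact mul_le_of_le_one_left (norm_nonneg _) (hψ1 _)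
  obtain ⟨V, hV, hsV, hVU, hVc⟩ := exists_open_between_and_isCompact_closure hφc hU hφs
  set C := closure V
  obtain ⟨η, hη, hηC⟩ := hφc.isCompact.exists_cthickening_subset_open hV hsV
  have hball : ∀ x ∈ tsupport φ, ∀ r ≤ η, closedBall x r ⊆ C := fun x hx r hr y hy =>
    subset_closure (hηC (mem_cthickening_of_dist_le y x η _ hx ((mem_closedBall.1 hy).trans hr)))
  set f := C.indicator w with hf
  set F := C.indicator fun y => ⟪G y, e⟫ with hF
  have hfi : Integrable f := (integrable_indicator_iff hVc.measurableSet).2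
    (h.1.integrableOn_compact_subset hVU hVc)
  have hFi : Integrable F := (integrable_indicator_iff hVc.measurableSet).2
    ((locallyIntegrableOn_inner_right h.2.1 e).integrableOn_compact_subset hVU hVc)
  have hlim1 : Tendsto (fun n => ∫ x, |moll (molRad n) f x - f x|) atTop (𝓝 0) :=
    (tendsto_integral_moll hfi).comp tendsto_molRad
  have hlimF : Tendsto (fun n => ∫ x, |moll (molRad n) F x - F x|) atTop (𝓝 0) :=
    (tendsto_integral_moll hFi).comp tendsto_molRad
  obtain ⟨k, hk, hae⟩ := exists_subseq_ae
    (fun n => (integrable_moll (molRad_pos n) hfi).1.sub hfi) hlim1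
  set r : ℕ → ℝ := fun n => molRad (k n) with hr
  have hr0 : ∀ n, 0 < r n := fun n => molRad_pos _
  have hrη : ∀ᶠ n in atTop, r n ≤ η :=
    ((tendsto_molRad.comp hk.tendsto_atTop).mono_right nhdsWithin_le_nhds).eventually_le_const hη
  obtain ⟨P, hP⟩ := hφ.continuous.bounded_above_of_compact_support hφc
  obtain ⟨D, hD⟩ := (continuous_fderiv_apply_const hφ e).bounded_above_of_compact_support
    (hφc.fderiv_apply ℝ e)
  have hsm : ∀ n, ContDiff ℝ 1 (fun x => ψ (moll (r n) f x)) := fun n =>
    hψ.comp ((contDiff_moll (hr0 n) hfi).of_le (by simp))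
  have heq : ∀ᶠ n in atTop, ∫ x, ψ (moll (r n) f x) * fderiv ℝ φ x e =
      -∫ x, deriv ψ (moll (r n) f x) * moll (r n) F x * φ x := by
    filter_upwards [hrη] with n hn
    rw [(isSobolevOn_of_contDiffOn isOpen_univ (hsm n).contDiffOn).2.2 φ hφ hφc (subset_univ _) e]
    refine congrArg Neg.neg (integral_congr_ae (Eventually.of_forall fun x => ?_))
    by_cases hx : x ∈ tsupport φ
    · have hd : HasFDerivAt (fun x => ψ (moll (r n) f x))
          (deriv ψ (moll (r n) f x) • fderiv ℝ (moll (r n) f) x) x :=
        (hψd _).comp_hasFDerivAt x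
          ((contDiff_moll (hr0 n) hfi).differentiable (by simp) x).hasFDerivAt
      simp only [hf] at hd
      simp only [inner_gradOf, hf, hF]
      rw [hd.fderiv, smul_apply, smul_eq_mul, fderiv_moll h hVc hVU (hr0 n) (hball x hx _ hn) e]
    · simp [image_eq_zero_of_notMem_tsupport hx]
  have hmm : ∀ n, Continuous (moll (r n) f) := fun n => (contDiff_moll (hr0 n) hfi).continuous
  have hφi : Integrable φ := hφ.continuous.integrable_of_hasCompactSupport hφc
  have hψb : ∀ n, ∀ {a : ℂ → ℝ}, Integrable a →
      Integrable fun x => deriv ψ (moll (r n) f x) * a x * φ x := fun n a ha =>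
    (ha.bdd_mul (c := 1) (hψc.comp (hmm n)).aestronglyMeasurable
      (Eventually.of_forall fun x => by simpa using hψ1 _)).mul_bdd (c := P)
        hφ.continuous.aestronglyMeasurable (Eventually.of_forall hP)
  have hLA : Tendsto (fun n => ∫ x, ψ (moll (r n) f x) * fderiv ℝ φ x e) atTop
      (𝓝 (∫ x, ψ (f x) * fderiv ℝ φ x e)) := by
    have hd0 : Tendsto (fun n => ∫ x, |moll (r n) f x - f x|) atTop (𝓝 0) :=
      hlim1.comp hk.tendsto_atTop
    rw [tendsto_iff_norm_sub_tendsto_zero]
    refine squeeze_zero (fun n => norm_nonneg _) (fun n => ?_) (by simpa using hd0.mul_const D)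
    have i0 : Integrable fun x => ψ (f x) * fderiv ℝ φ x e := by
      refine Integrable.mono' (g := fun x => |f x| * D + |ψ 0| * |fderiv ℝ φ x e|)
        ((hfi.abs.mul_const D).add (((continuous_fderiv_apply_const hφ e).abs.integrable_of_hasCompactSupport
          (hφc.fderiv_apply ℝ e).abs).const_mul _))
        ((hψ.continuous.comp_aestronglyMeasurable hfi.1).mul
          (continuous_fderiv_apply_const hφ e).aestronglyMeasurable) (Eventually.of_forall fun x => ?_)
      have h1 := hlip (f x) 0
      rw [sub_zero] at h1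
      have h2 : |fderiv ℝ φ x e| ≤ D := hD x
      rw [Real.norm_eq_abs, abs_mul]
      calc |ψ (f x)| * |fderiv ℝ φ x e| ≤ (|f x| + |ψ 0|) * |fderiv ℝ φ x e| := by
            gcongr; linarith [abs_sub_abs_le_abs_sub (ψ (f x)) (ψ 0)]
        _ ≤ _ := by rw [add_mul]; gcongr
    have i1 : Integrable fun x => ψ (moll (r n) f x) * fderiv ℝ φ x e :=
      ((hsm n).continuous.mul (continuous_fderiv_apply_const hφ e)).integrable_of_hasCompactSupport
        (hφc.fderiv_apply ℝ e).mul_left
    rw [← integral_sub i1 i0, ← integral_mul_const]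
    refine norm_integral_le_of_norm_le
      (((integrable_moll (hr0 n) hfi).1.sub hfi).abs.mul_const D) (Eventually.of_forall fun x => ?_)
    rw [← sub_mul, norm_mul, Real.norm_eq_abs]
    exact mul_le_mul (hlip _ _) (hD x) (norm_nonneg _) (abs_nonneg _)
  have hLB : Tendsto (fun n => ∫ x, deriv ψ (moll (r n) f x) * moll (r n) F x * φ x) atTop
      (𝓝 (∫ x, deriv ψ (f x) * F x * φ x)) := by
    have h1 : Tendsto (fun n => ∫ x, deriv ψ (moll (r n) f x) * F x * φ x) atTop
        (𝓝 (∫ x, deriv ψ (f x) * F x * φ x)) := by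
      refine tendsto_integral_of_dominated_convergence (fun x => |F x| * P)
        (fun n => (hψb n hFi).1) (hFi.abs.mul_const P) (fun n => Eventually.of_forall fun x => ?_) ?_
      · rw [norm_mul, norm_mul]
        exact mul_le_mul (mul_le_of_le_one_left (norm_nonneg _) (hψ1 _)) (hP x) (norm_nonneg _)
          (abs_nonneg _)
      · filter_upwards [hae] with x hx
        exact (((hψc.tendsto _).comp hx).mul_const _).mul_const _
    refine (tendsto_iff_dist_tendsto_zero.2 ?_)
    have hd0 : Tendsto (fun n => ∫ x, |moll (r n) F x - F x|) atTop (𝓝 0) :=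
      hlimF.comp hk.tendsto_atTop
    refine squeeze_zero (fun n => dist_nonneg) (fun n => dist_triangle _
      (∫ x, deriv ψ (moll (r n) f x) * F x * φ x) _) ?_
    rw [show (0 : ℝ) = 0 + 0 by ring]
    refine Tendsto.add ?_ (tendsto_iff_dist_tendsto_zero.1 h1)
    refine squeeze_zero (fun n => dist_nonneg) (fun n => ?_) (by simpa using hd0.mul_const P)
    have iF := (integrable_moll (hr0 n) hFi).1
    rw [dist_eq_norm, ← integral_sub (hψb n iF) (hψb n hFi), ← integral_mul_const]
    refine norm_integral_le_of_norm_le ((iF.sub hFi).abs.mul_const P) (Eventually.of_forall fun x => ?_)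
    rw [← sub_mul, ← mul_sub, norm_mul, norm_mul]
    exact mul_le_mul (mul_le_of_le_one_left (norm_nonneg _) (hψ1 _)) (hP x) (norm_nonneg _)
      (abs_nonneg _)
  have hfinal := tendsto_nhds_unique hLA (hLB.neg.congr' (heq.mono fun n hn => hn.symm))
  have a1 : ∫ x, ψ (w x) * fderiv ℝ φ x e = ∫ x, ψ (f x) * fderiv ℝ φ x e := by
    refine integral_congr_ae (Eventually.of_forall fun x => ?_)
    by_cases hx : x ∈ tsupport φ
    · simp only [hf]
      rw [indicator_of_mem (subset_closure (hsV hx) : x ∈ C)]
    · simp [fderiv_of_notMem_tsupport ℝ hx]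
  have a2 : ∫ x, ⟪deriv ψ (w x) • G x, e⟫ * φ x = ∫ x, deriv ψ (f x) * F x * φ x := by
    refine integral_congr_ae (Eventually.of_forall fun x => ?_)
    by_cases hx : x ∈ tsupport φ
    · simp only [hf, hF]
      rw [indicator_of_mem (subset_closure (hsV hx) : x ∈ C),
        indicator_of_mem (subset_closure (hsV hx) : x ∈ C), real_inner_smul_left]
    · simp [image_eq_zero_of_notMem_tsupport hx]
  rw [a1, a2, hfinal]

end Vale.Agent.P128.Bridge
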