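import Vale.Agent.P128.Bridge.Reg.Mollify

/-!
# P128 bridge R0, part 2: regularity for `Δ F = H`

Two consecutive dyadic regularisations of `F` differ by `H` integrated against a rescaled fixed
smooth kernel of compact support; so they converge uniformly when `H` is square integrable, and in
`C¹` when `H` is bounded.
-/

open MeasureTheory Set Metric Filter
open scoped ENNReal NNReal Topology Real RealInnerProductSpace ContDiff

noncomputable section

namespace Vale.Agent.P128.Bridge

open RegW

/-- The kernel of one dyadic step. -/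
def stepKer (w : ℂ) : ℝ := radPot 1 4 (‖w‖ ^ 2)

theorem contDiff_stepKer : ContDiff ℝ ∞ stepKer :=
  (contDiff_radPot 1 4).comp (contDiff_id.norm_sq ℝ)

theorem stepKer_eq_zero {w : ℂ} (h : 1 ≤ ‖w‖) : stepKer w = 0 :=
  radPot_eq_zero one_pos (by norm_num) (by nlinarith)

theorem hasCompactSupport_stepKer : HasCompactSupport stepKer :=
  HasCompactSupport.intro (isCompact_closedBall 0 1) fun w hw => stepKer_eq_zero (by
    rw [mem_closedBall_zero_iff, not_le] at hw; exact hw.le)

theorem exists_stepKer_bounds : ∃ B L : ℝ, 0 ≤ B ∧ 0 ≤ L ∧ (∀ w, |stepKer w| ≤ B) ∧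
    ∀ w w', |stepKer w - stepKer w'| ≤ L * ‖w - w'‖ := by
  obtain ⟨B, hB⟩ := contDiff_stepKer.continuous.bounded_above_of_compact_support hasCompactSupport_stepKer
  obtain ⟨L, hL⟩ := contDiff_stepKer.lipschitzWith_of_hasCompactSupport hasCompactSupport_stepKer
    (by simp)
  exact ⟨B, L, (norm_nonneg _).trans (hB 0), L.2, hB, fun w w' => by
    rw [← Real.dist_eq, ← dist_eq_norm]; exact hL.dist_le_mul w w'⟩

theorem stepKer_scale_eq_zero {r : ℝ} (hr : 0 < r) {x y : ℂ} (hy : y ∉ closedBall x r) :
    stepKer (r⁻¹ • (y - x)) = 0 := by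
  refine stepKer_eq_zero ?_
  rw [mem_closedBall, not_le, dist_eq_norm] at hy
  rw [norm_smul, norm_inv, Real.norm_eq_abs, abs_of_pos hr, inv_mul_eq_div, one_le_div hr]
  exact hy.le

/-- The equation `Δ F = H`, tested in `O`. -/
def WeakPoisson (O : Set ℂ) (F H : ℂ → ℝ) : Prop :=
  ∀ φ : ℂ → ℝ, ContDiff ℝ ∞ φ → HasCompactSupport φ → tsupport φ ⊆ O →
    ∫ z, F z * lap φ z = ∫ z, H z * φ z

variable {O : Set ℂ} {F H : ℂ → ℝ}

/-- One dyadic step. -/
theorem moll_step (hF : Integrable F) (heq : WeakPoisson O F H) {x : ℂ} {r : ℝ} (hr : 0 < r)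
    (hsub : closedBall x r ⊆ O) :
    moll (r / 2) F x - moll r F x = π⁻¹ * ∫ y, H y * stepKer (r⁻¹ • (y - x)) := by
  set t := 1 / r ^ 2 with ht
  have hpot : pot t (4 * t) x = fun y => stepKer (r⁻¹ • (y - x)) := by
    funext y
    have : ‖r⁻¹ • (y - x)‖ ^ 2 = t * ‖y - x‖ ^ 2 := by
      rw [norm_smul, norm_inv, Real.norm_eq_abs, abs_of_pos hr, ht]; field_simp
    rw [stepKer, this]
    show radPot t (4 * t) (‖y - x‖ ^ 2) = _
    have ht0 : t ≠ 0 := by positivity
    simp only [radPot, mul_div_assoc, mul_assoc, one_mul, div_self ht0]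
    norm_num
  have hts : tsupport (pot t (4 * t) x) ⊆ closedBall x r := by
    rw [hpot]
    exact closure_minimal (fun y hy => by_contra fun h => hy (stepKer_scale_eq_zero hr h))
      isClosed_closedBall
  have hcs : HasCompactSupport (pot t (4 * t) x) :=
    HasCompactSupport.of_support_subset_isCompact (isCompact_closedBall x r)
      ((subset_tsupport _).trans hts)
  have h0 := heq _ (contDiff_pot t (4 * t) x) hcs (hts.trans hsub)
  have e : (fun y => F y * lap (pot t (4 * t) x) y) =
      fun y => π * (F y * kern (r / 2) (y - x)) - π * (F y * kern r (y - x)) := by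
    funext y
    have e1 : lap (pot t (4 * t) x) y = π * kern (r / 2) (y - x) - π * kern r (y - x) := by
      rw [lap_pot]
      simp only [kern, t]
      field_simp
      ring_nf
    rw [e1]; ring
  rw [e, integral_sub ((integrable_mul_kern (half_pos hr) hF x).const_mul π)
    ((integrable_mul_kern hr hF x).const_mul π), integral_const_mul, integral_const_mul, hpot] at h0
  rw [← h0]
  simp only [moll]
  field_simp

theorem step_bound (hH : Integrable fun y => H y ^ 2) {B : ℝ} (hB0 : 0 ≤ B)
    (hB : ∀ w, |stepKer w| ≤ B) {x : ℂ} {r : ℝ} (hr : 0 < r) :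
    |∫ y, H y * stepKer (r⁻¹ • (y - x))| ≤ B * r * ((∫ y, H y ^ 2) + 4) := by
  have hsq : 0 ≤ ∫ y, H y ^ 2 := integral_nonneg fun y => sq_nonneg _
  have hvol : volume.real (closedBall x r) ≤ 4 * r ^ 2 := by
    rw [measureReal_def, Complex.volume_closedBall, ENNReal.toReal_mul, ENNReal.toReal_pow,
      ENNReal.toReal_ofReal hr.le, ENNReal.coe_toReal, NNReal.coe_real_pi]
    nlinarith [Real.pi_lt_four, sq_nonneg r]
  rw [← Real.norm_eq_abs]
  refine (norm_integral_le_of_norm_le
    (g := fun y => r * B * H y ^ 2 + (closedBall x r).indicator (fun _ => B / r) y) ?_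
    (Eventually.of_forall fun y => ?_)).trans ?_
  · exact (hH.const_mul _).add ((integrable_indicator_iff measurableSet_closedBall).2
      (integrableOn_const measure_closedBall_lt_top.ne))
  · rw [norm_mul, Real.norm_eq_abs, Real.norm_eq_abs]
    by_cases hy : y ∈ closedBall x r
    · rw [indicator_of_mem hy]
      refine (mul_le_mul_of_nonneg_left (hB _) (abs_nonneg _)).trans ?_
      have h2 : |H y| ≤ r * H y ^ 2 + 1 / r := by
        rw [← sub_nonneg]
        have e : r * H y ^ 2 + 1 / r - |H y| = (r * |H y| - 1) ^ 2 / r + |H y| := by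
          field_simp; rw [sq_abs (H y) |>.symm]; ring
        rw [e]; positivity
      calc |H y| * B ≤ (r * H y ^ 2 + 1 / r) * B := mul_le_mul_of_nonneg_right h2 hB0
        _ = _ := by ring
    · rw [indicator_of_notMem hy, stepKer_scale_eq_zero hr hy]
      simp
      positivity
  · rw [integral_add (hH.const_mul _) ((integrable_indicator_iff measurableSet_closedBall).2
      (integrableOn_const measure_closedBall_lt_top.ne)), integral_const_mul,
      integral_indicator measurableSet_closedBall, setIntegral_const, smul_eq_mul]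
    calc r * B * (∫ y, H y ^ 2) + volume.real (closedBall x r) * (B / r)
        ≤ r * B * (∫ y, H y ^ 2) + 4 * r ^ 2 * (B / r) := by gcongr
      _ = _ := by field_simp

theorem integrable_mul_stepKer (hH : Integrable H) (x : ℂ) (r : ℝ) :
    Integrable fun y => H y * stepKer (r⁻¹ • (y - x)) := by
  obtain ⟨B, L, -, -, hB, -⟩ := exists_stepKer_bounds
  have hc : Continuous fun y : ℂ => r⁻¹ • (y - x) := by fun_prop
  have hm : AEStronglyMeasurable (fun y : ℂ => stepKer (r⁻¹ • (y - x))) volume :=
    (contDiff_stepKer.continuous.comp hc).aestronglyMeasurable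
  exact hH.mul_bdd (c := B) hm (Eventually.of_forall fun y => hB _)

theorem step_lip (hH : Integrable H) {L M : ℝ} (hL : 0 ≤ L) (hM : 0 ≤ M)
    (hLb : ∀ w w', |stepKer w - stepKer w'| ≤ L * ‖w - w'‖) {x x' : ℂ} {r : ℝ} (hr : 0 < r)
    (hb : ∀ᵐ y, y ∈ closedBall x r ∪ closedBall x' r → |H y| ≤ M) :
    |(∫ y, H y * stepKer (r⁻¹ • (y - x))) - ∫ y, H y * stepKer (r⁻¹ • (y - x'))| ≤
      8 * M * L * r * ‖x - x'‖ := by
  rw [← integral_sub (integrable_mul_stepKer hH x r) (integrable_mul_stepKer hH x' r),
    ← Real.norm_eq_abs]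
  set c := M * L * (‖x - x'‖ / r)
  have hvol : volume.real (closedBall x r ∪ closedBall x' r) ≤ 8 * r ^ 2 := by
    refine (measureReal_union_le _ _).trans ?_
    simp only [measureReal_def, Complex.volume_closedBall, ENNReal.toReal_mul, ENNReal.toReal_pow,
      ENNReal.toReal_ofReal hr.le, ENNReal.coe_toReal, NNReal.coe_real_pi]
    nlinarith [Real.pi_lt_four, sq_nonneg r]
  refine (norm_integral_le_of_norm_le
    (g := (closedBall x r ∪ closedBall x' r).indicator fun _ => c) ?_ ?_).trans ?_
  · exact (integrable_indicator_iff (measurableSet_closedBall.union measurableSet_closedBall)).2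
      (integrableOn_const ((measure_union_lt_top_iff.2
        ⟨measure_closedBall_lt_top, measure_closedBall_lt_top⟩).ne))
  · filter_upwards [hb] with y hy
    by_cases hym : y ∈ closedBall x r ∪ closedBall x' r
    · rw [indicator_of_mem hym, ← mul_sub, norm_mul, Real.norm_eq_abs, Real.norm_eq_abs]
      refine (mul_le_mul (hy hym) (hLb _ _) (abs_nonneg _) hM).trans (le_of_eq ?_)
      rw [← smul_sub, sub_sub_sub_cancel_left, norm_smul, norm_inv, Real.norm_eq_abs,
        abs_of_pos hr, norm_sub_rev x' x]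
      ring
    · simp only [mem_union, not_or] at hym
      rw [stepKer_scale_eq_zero hr hym.1, stepKer_scale_eq_zero hr hym.2]
      simp [indicator_of_notMem, hym.1, hym.2]
  · rw [integral_indicator (measurableSet_closedBall.union measurableSet_closedBall),
      setIntegral_const, smul_eq_mul]
    calc volume.real (closedBall x r ∪ closedBall x' r) * c ≤ 8 * r ^ 2 * c :=
          mul_le_mul_of_nonneg_right hvol (by positivity)
      _ = _ := by simp only [c]; field_simp

/-- The pointwise value: the limit of the dyadic regularisations. -/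
def ptVal (F : ℂ → ℝ) (x : ℂ) : ℝ := limUnder atTop fun n => moll (molRad n) F x

theorem molRad_succ (n : ℕ) : molRad (n + 1) = molRad n / 2 := by
  simp only [molRad, pow_succ]; ring

theorem exists_molRad_le {ρ : ℝ} (hρ : 0 < ρ) : ∃ n₀, ∀ n, n₀ ≤ n → molRad n ≤ ρ := by
  obtain ⟨n₀, hn₀⟩ := eventually_atTop.1
    ((tendsto_molRad.mono_right nhdsWithin_le_nhds).eventually_le_const hρ)
  exact ⟨n₀, hn₀⟩

/-- Uniform convergence from summable increments. -/
theorem tendstoUniformlyOn_of_increments {E : Type*} [NormedAddCommGroup E] [CompleteSpace E]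
    {f : ℕ → ℂ → E} {s : Set ℂ} {b : ℕ → ℝ} (hb : Summable b)
    (h : ∀ i, ∀ x ∈ s, ‖f (i + 1) x - f i x‖ ≤ b i) :
    ∃ g : ℂ → E, TendstoUniformlyOn f g atTop s := by
  have h1 := tendstoUniformlyOn_tsum_nat (f := fun i x => f (i + 1) x - f i x) hb h
  refine ⟨fun x => f 0 x + ∑' i, (f (i + 1) x - f i x), ?_⟩
  rw [Metric.tendstoUniformlyOn_iff] at h1 ⊢
  intro ε hε
  filter_upwards [h1 ε hε] with N hN x hx
  have e : ∀ N, f N x = f 0 x + ∑ i ∈ Finset.range N, (f (i + 1) x - f i x) := fun N => by
    rw [Finset.sum_range_sub (fun i => f i x)]; abel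
  rw [e N, dist_add_left]
  exact hN x hx

/-- Near each point the regularisations converge uniformly, for square integrable `H`. -/
theorem exists_uniform (hF : Integrable F) (hH2 : Integrable fun y => H y ^ 2)
    (heq : WeakPoisson O F H) (hO : IsOpen O) {a : ℂ} (ha : a ∈ O) :
    ∃ ρ : ℝ, 0 < ρ ∧ closedBall a (2 * ρ) ⊆ O ∧ ∃ n₀, (∀ n, n₀ ≤ n → molRad n ≤ ρ) ∧
      TendstoUniformlyOn (fun i x => moll (molRad (i + n₀)) F x) (ptVal F) atTop (ball a ρ) := by
  obtain ⟨ε, hε, hεO⟩ := Metric.nhds_basis_closedBall.mem_iff.1 (hO.mem_nhds ha)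
  obtain ⟨n₀, hn₀⟩ := exists_molRad_le (half_pos hε)
  obtain ⟨B, L, hB0, -, hB, -⟩ := exists_stepKer_bounds
  set C := π⁻¹ * (B * ((∫ y, H y ^ 2) + 4)) with hC
  obtain ⟨g, hg⟩ := tendstoUniformlyOn_of_increments
    (f := fun i x => moll (molRad (i + n₀)) F x) (s := ball a (ε / 2))
    (b := fun i => C * molRad (i + n₀))
    (((summable_nat_add_iff (f := molRad) n₀).2
      (by unfold molRad; exact summable_geometric_two)).mul_left C) (fun i x hx => by
        have hsub : closedBall x (molRad (i + n₀)) ⊆ O :=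
          (closedBall_subset_closedBall' (by
            linarith [hn₀ (i + n₀) (by omega), mem_ball.1 hx])).trans hεO
        rw [Real.norm_eq_abs, show i + 1 + n₀ = i + n₀ + 1 by omega, molRad_succ,
          moll_step hF heq (molRad_pos _) hsub, abs_mul, abs_of_pos (inv_pos.2 Real.pi_pos), hC,
          mul_assoc, mul_assoc]
        refine mul_le_mul_of_nonneg_left ((step_bound hH2 hB0 hB (molRad_pos _)).trans
          (le_of_eq (by ring))) (inv_nonneg.2 Real.pi_pos.le))
  refine ⟨ε / 2, half_pos hε, by rwa [mul_div_cancel₀ ε two_ne_zero], n₀, hn₀,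
    hg.congr_right fun x hx => ?_⟩
  exact (Tendsto.limUnder_eq ((tendsto_add_atTop_iff_nat n₀).1 (hg.tendsto_at hx))).symm

/-- The pointwise value is continuous. -/
theorem continuousOn_ptVal (hF : Integrable F) (hH2 : Integrable fun y => H y ^ 2)
    (heq : WeakPoisson O F H) (hO : IsOpen O) : ContinuousOn (ptVal F) O := by
  intro a ha
  obtain ⟨ρ, hρ, -, n₀, -, hu⟩ := exists_uniform hF hH2 heq hO ha
  exact ((hu.continuousOn (Eventually.frequently (Eventually.of_forall fun i =>
    ((contDiff_moll (molRad_pos _) hF).continuous.continuousOn)))).continuousAt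
      (ball_mem_nhds a hρ)).continuousWithinAt

/-- The pointwise value is the function, almost everywhere. -/
theorem ptVal_ae_eq (hF : Integrable F) (hH2 : Integrable fun y => H y ^ 2)
    (heq : WeakPoisson O F H) (hO : IsOpen O) : ptVal F =ᵐ[volume.restrict O] F := by
  obtain ⟨k, hk, hae⟩ := exists_subseq_ae
    (fun n => (integrable_moll (molRad_pos n) hF).1.sub hF)
    ((tendsto_integral_moll hF).comp tendsto_molRad)
  filter_upwards [ae_restrict_mem hO.measurableSet, ae_restrict_of_ae hae] with a ha hlim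
  obtain ⟨ρ, hρ, -, n₀, -, hu⟩ := exists_uniform hF hH2 heq hO ha
  exact tendsto_nhds_unique
    (((tendsto_add_atTop_iff_nat (f := fun n => moll (molRad n) F a) n₀).1
      (hu.tendsto_at (mem_ball_self hρ))).comp hk.tendsto_atTop) hlim

/-- The pointwise value is `C¹` where `H` is bounded. -/
theorem contDiffOn_ptVal (hF : Integrable F) (hH : Integrable H)
    (hH2 : Integrable fun y => H y ^ 2) (heq : WeakPoisson O F H) (hO : IsOpen O)
    (hb : ∀ a ∈ O, ∃ ε > 0, ∃ M : ℝ, ∀ᵐ y, y ∈ ball a ε → |H y| ≤ M) :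
    ContDiffOn ℝ 1 (ptVal F) O := by
  intro a ha
  obtain ⟨ρ, hρ, hρO, n₀, hn₀, hu⟩ := exists_uniform hF hH2 heq hO ha
  obtain ⟨ε, hε, M, hM⟩ := hb a ha
  set s := min ρ (ε / 2) with hs
  have hs0 : 0 < s := lt_min hρ (half_pos hε)
  obtain ⟨n₁, hn₁⟩ := exists_molRad_le hs0
  obtain ⟨B, L, -, hL0, -, hLb⟩ := exists_stepKer_bounds
  set f : ℕ → ℂ → ℝ := fun i x => moll (molRad (i + n₁)) F x with hf
  have hfd : ∀ i, Differentiable ℝ (f i) := fun i =>
    (contDiff_moll (molRad_pos _) hF).differentiable (by simp)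
  set C := π⁻¹ * (8 * max M 0 * L)
  have hinc : ∀ i, ∀ x ∈ ball a s, ∀ y ∈ ball a s,
      |(f (i + 1) x - f i x) - (f (i + 1) y - f i y)| ≤ C * molRad (i + n₁) * ‖x - y‖ := by
    intro i x hx y hy
    have hsub : ∀ {w}, w ∈ ball a s → closedBall w (molRad (i + n₁)) ⊆ closedBall a (2 * s) :=
      fun hw => closedBall_subset_closedBall' (by
        linarith [hn₁ (i + n₁) (by omega), mem_ball.1 hw])
    have hO' : closedBall a (2 * s) ⊆ O :=
      (closedBall_subset_closedBall (by linarith [min_le_left ρ (ε / 2)])).trans hρO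
    simp only [hf]
    rw [show i + 1 + n₁ = i + n₁ + 1 by omega, molRad_succ,
      moll_step hF heq (molRad_pos _) ((hsub hx).trans hO'),
      moll_step hF heq (molRad_pos _) ((hsub hy).trans hO'), ← mul_sub, abs_mul,
      abs_of_pos (inv_pos.2 Real.pi_pos)]
    refine (mul_le_mul_of_nonneg_left (step_lip hH hL0 (le_max_right M 0) hLb (molRad_pos _) ?_)
      (inv_nonneg.2 Real.pi_pos.le)).trans (le_of_eq (by ring))
    filter_upwards [hM, measure_eq_zero_iff_ae_notMem.1 (Measure.addHaar_sphere volume a ε)]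
      with w hw hws hwm
    refine (hw ?_).trans (le_max_left _ _)
    have h2 : w ∈ closedBall a (2 * s) := hwm.elim (fun h => hsub hx h) fun h => hsub hy h
    rw [mem_closedBall] at h2
    exact lt_of_le_of_ne (h2.trans (by linarith [min_le_right ρ (ε / 2)])) hws
  obtain ⟨D, hD⟩ := tendstoUniformlyOn_of_increments (f := fun i x => fderiv ℝ (f i) x)
    (s := ball a s) (b := fun i => C * molRad (i + n₁))
    (((summable_nat_add_iff (f := molRad) n₁).2
      (by unfold molRad; exact summable_geometric_two)).mul_left C) (fun i x hx => by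
        rw [← fderiv_fun_sub (hfd _ x) (hfd _ x)]
        refine ((hfd (i + 1) x).fun_sub (hfd i x)).hasFDerivAt.le_of_lip'
          (by have := molRad_pos (i + n₁); positivity) ?_
        filter_upwards [isOpen_ball.mem_nhds hx] with y hy
        exact hinc i y hy x hx)
  have hlim : ∀ x ∈ ball a s, Tendsto (fun i => f i x) atTop (𝓝 (ptVal F x)) := fun x hx => by
    have h1 := (tendsto_add_atTop_iff_nat (f := fun n => moll (molRad n) F x) n₀).1
      (hu.tendsto_at (ball_subset_ball (min_le_left _ _) hx))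
    exact (tendsto_add_atTop_iff_nat (f := fun n => moll (molRad n) F x) n₁).2 h1
  have hder : ∀ x ∈ ball a s, HasFDerivAt (ptVal F) (D x) x := fun x hx =>
    hasFDerivAt_of_tendstoUniformlyOn isOpen_ball hD
      (fun i y _ => (hfd i y).hasFDerivAt) hlim hx
  have hDc : ContinuousOn D (ball a s) :=
    hD.continuousOn (Eventually.frequently (Eventually.of_forall fun i =>
      ((contDiff_moll (molRad_pos _) hF).continuous_fderiv (by simp)).continuousOn))
  have hcd : ContDiffOn ℝ 1 (ptVal F) (ball a s) := by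
    refine (contDiffOn_succ_iff_fderiv_of_isOpen (n := 0) isOpen_ball).2
      ⟨fun x hx => (hder x hx).differentiableAt.differentiableWithinAt,
        fun h => absurd h (by simp), ?_⟩
    rw [contDiffOn_zero]
    exact hDc.congr fun x hx => (hder x hx).fderiv
  exact (hcd.contDiffAt (ball_mem_nhds a hs0)).contDiffWithinAt

end Vale.Agent.P128.Bridge
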