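import Vale.Agent.P128.Bridge.Reg.Potential
import Vale.Agent.P128.Bridge.Spec

/-!
# P128 bridge R0, part 3: the energy as an integral, the Euler equation
-/

open MeasureTheory Set Metric Filter
open scoped ENNReal NNReal Topology Real RealInnerProductSpace ContDiff

noncomputable section

namespace Vale.Agent.P128.Bridge

open RegW

variable {Ω : Set ℂ} {g : ℂ → ℝ}

/-- The essential bound of the datum. -/
def datumBound (Ω : Set ℂ) (g : ℂ → ℝ) : ℝ := (eLpNorm g ⊤ (volume.restrict Ω)).toReal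

/-- The density of the energy. -/
def msDens (g : ℂ → ℝ) (P : Admissible Ω) (x : ℂ) : ℝ := ‖P.G x‖ ^ 2 + (P.u x - g x) ^ 2

theorem msDens_nonneg (g : ℂ → ℝ) (P : Admissible Ω) (x : ℂ) : 0 ≤ msDens g P x := by
  unfold msDens; positivity

theorem ae_abs_le_datumBound (hg : MemLp g ⊤ (volume.restrict Ω)) :
    ∀ᵐ x ∂volume.restrict Ω, |g x| ≤ datumBound Ω g := by
  filter_upwards [ae_le_eLpNormEssSup (f := g) (μ := volume.restrict Ω)] with x hx
  have := ENNReal.toReal_mono hg.2.ne (hx.trans_eq eLpNorm_exponent_top.symm)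
  simpa [datumBound] using this

theorem datumBound_nonneg (Ω : Set ℂ) (g : ℂ → ℝ) : 0 ≤ datumBound Ω g := ENNReal.toReal_nonneg

theorem Admissible.null (P : Admissible Ω) : volume P.K = 0 :=
  volume_eq_zero_of_hausdorff_one_lt_top P.finite

theorem Admissible.sdiff_ae (P : Admissible Ω) (V : Set ℂ) : (V \ P.K : Set ℂ) =ᵐ[volume] V :=
  sdiff_null_ae_eq_self P.null

theorem Admissible.isSobolevOn (P : Admissible Ω) : IsSobolevOn (Ω \ P.K) P.u P.G := by
  refine ⟨?_, ?_, P.weakGrad⟩ <;> rw [locallyIntegrableOn_iff P.isOpen_compl.isLocallyClosed] <;>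
    intro k hk hkc <;>
    have : IsFiniteMeasure (volume.restrict k) := isFiniteMeasure_restrict.2 hkc.measure_lt_top.ne
  · exact (P.memL2.mono_measure (Measure.restrict_mono (hk.trans sdiff_subset) le_rfl)).integrable
      one_le_two
  · exact (P.gradL2.mono_measure (Measure.restrict_mono hk le_rfl)).integrable one_le_two

theorem memLp_datum (hg : MemLp g ⊤ (volume.restrict Ω)) {V : Set ℂ} (hV : V ⊆ Ω)
    (hfin : volume V ≠ ⊤) : MemLp g 2 (volume.restrict V) := by
  have : IsFiniteMeasure (volume.restrict V) := isFiniteMeasure_restrict.2 hfin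
  exact MemLp.of_bound (hg.1.mono_set hV) (datumBound Ω g)
    (ae_restrict_of_ae_restrict_of_subset hV (ae_abs_le_datumBound hg))

theorem integrableOn_msDens (hg : MemLp g ⊤ (volume.restrict Ω)) (P : Admissible Ω) {V : Set ℂ}
    (hV : V ⊆ Ω) (hfin : volume V ≠ ⊤) : IntegrableOn (msDens g P) (V \ P.K) := by
  have hm : volume.restrict (V \ P.K) ≤ volume.restrict V :=
    Measure.restrict_mono sdiff_subset le_rfl
  have h1 : MemLp P.G 2 (volume.restrict (V \ P.K)) :=
    P.gradL2.mono_measure (Measure.restrict_mono (Set.sdiff_subset_sdiff_left hV) le_rfl)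
  have h2 : MemLp (fun x => P.u x - g x) 2 (volume.restrict (V \ P.K)) :=
    (((P.memL2.mono_measure (Measure.restrict_mono hV le_rfl)).sub
      (memLp_datum hg hV hfin)).mono_measure hm)
  exact ((memLp_two_iff_integrable_sq_norm h1.1).1 h1).add ((memLp_two_iff_integrable_sq h2.1).1 h2)

/-- The functional as one integral. -/
theorem msEnergy_eq (hg : MemLp g ⊤ (volume.restrict Ω)) (P : Admissible Ω) {V : Set ℂ}
    (hV : V ⊆ Ω) (hfin : volume V ≠ ⊤) :
    msEnergy g P V =
      ENNReal.ofReal (∫ x in V \ P.K, msDens g P x) + μH[1] (P.K ∩ V) := by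
  rw [ofReal_integral_eq_lintegral_ofReal (integrableOn_msDens hg P hV hfin)
    (Eventually.of_forall (msDens_nonneg g P)), msEnergy, weakEnergy,
    ← setLIntegral_congr (P.sdiff_ae V) (f := fun x => ‖P.u x - g x‖ₑ ^ 2)]
  simp only [msDens]
  rw [show (fun x => ENNReal.ofReal (‖P.G x‖ ^ 2 + (P.u x - g x) ^ 2)) =
      fun x => ‖P.G x‖ₑ ^ 2 + ‖P.u x - g x‖ₑ ^ 2 from funext fun x => by
    rw [← ofReal_norm, ← ofReal_norm, ← ENNReal.ofReal_pow (norm_nonneg _),
      ← ENNReal.ofReal_pow (norm_nonneg _), ← ENNReal.ofReal_add (sq_nonneg _) (sq_nonneg _),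
      Real.norm_eq_abs, sq_abs]]
  rw [lintegral_add_left' ((P.gradL2.1.mono_set (Set.sdiff_subset_sdiff_left hV)).enorm.pow_const 2)]
  ring

/-- Minimality against a competitor with the same set. -/
theorem IsMinimizer.integral_le (hg : MemLp g ⊤ (volume.restrict Ω)) {P Q : Admissible Ω}
    (hmin : IsMinimizer Ω g P) {c : ℂ} {R : ℝ} (hR : 0 < R) (hsub : closedBall c R ⊆ Ω)
    (hK : Q.K = P.K) {C : Set ℂ} (hC : IsCompact C) (hCV : C ⊆ ball c R)
    (hu : ∀ᵐ x ∂volume.restrict (Ω \ C), Q.u x = P.u x) :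
    ∫ x in ball c R \ P.K, msDens g P x ≤ ∫ x in ball c R \ P.K, msDens g Q x := by
  have hV : ball c R ⊆ Ω := ball_subset_closedBall.trans hsub
  have hfin : volume (ball c R) ≠ ⊤ := measure_ball_lt_top.ne
  have := hmin (ball c R) isOpen_ball
    (by rw [closure_ball c hR.ne']; exact isCompact_closedBall c R)
    (by rw [closure_ball c hR.ne']; exact hsub) Q ⟨C, hC, hCV, by simp [hK], hu⟩
  rw [msEnergy_eq hg P hV hfin, msEnergy_eq hg Q hV hfin, hK] at this
  have hH : μH[1] (P.K ∩ ball c R) ≠ ⊤ :=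
    ((measure_mono inter_subset_left).trans_lt P.finite).ne
  rw [ENNReal.add_le_add_iff_right hH, ENNReal.ofReal_le_ofReal_iff
    (integral_nonneg (msDens_nonneg g Q))] at this
  exact this

/-- The variation `u + ε φ`. -/
def Admissible.vary (P : Admissible Ω) (φ : ℂ → ℝ) (Gφ : ℂ → ℂ) (ε : ℝ)
    (hs : IsSobolevOn (Ω \ P.K) φ Gφ) (h1 : MemLp φ 2 (volume.restrict Ω))
    (h2 : MemLp Gφ 2 (volume.restrict (Ω \ P.K))) : Admissible Ω where
  K := P.K
  u := fun x => P.u x + ε * φ x
  G := fun x => P.G x + ε • Gφ x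
  subset := P.subset
  isOpen_compl := P.isOpen_compl
  finite := P.finite
  memL2 := P.memL2.add (h1.const_mul ε)
  gradL2 := P.gradL2.add (h2.const_smul ε)
  weakGrad := (P.isSobolevOn.add (hs.const_mul ε)).2.2

/-- **The Euler equation.** -/
theorem IsMinimizer.euler (hg : MemLp g ⊤ (volume.restrict Ω)) {P : Admissible Ω}
    (hΩ : MeasurableSet Ω)
    (hmin : IsMinimizer Ω g P) {c : ℂ} {R : ℝ} (hR : 0 < R) (hsub : closedBall c R ⊆ Ω)
    {φ : ℂ → ℝ} {Gφ : ℂ → ℂ} {C : Set ℂ} (hs : IsSobolevOn (Ω \ P.K) φ Gφ) (hC : IsCompact C)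
    (hCV : C ⊆ ball c R) (h0 : ∀ x ∉ C, φ x = 0 ∧ Gφ x = 0) {b : ℝ} (hb : ∀ x, |φ x| ≤ b)
    (hfin : ∫⁻ x in C \ P.K, ‖Gφ x‖ₑ ^ 2 < ⊤) :
    ∫ x in Ω \ P.K, (⟪P.G x, Gφ x⟫ + (P.u x - g x) * φ x) = 0 := by
  have hV : ball c R ⊆ Ω := ball_subset_closedBall.trans hsub
  set O := Ω \ P.K
  have hOm : MeasurableSet O := P.isOpen_compl.measurableSet
  have hO : (O : Set ℂ) =ᵐ[volume] Ω := P.sdiff_ae Ω
  have hφm : AEStronglyMeasurable φ (volume.restrict Ω) := by
    rw [← Measure.restrict_congr_set hO]; exact hs.1.aestronglyMeasurable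
  have hφ2 : MemLp φ 2 (volume.restrict Ω) := by
    have e : φ = C.indicator φ := funext fun x => by
      by_cases hx : x ∈ C
      · rw [indicator_of_mem hx]
      · rw [indicator_of_notMem hx, (h0 x hx).1]
    rw [e, memLp_indicator_iff_restrict hC.measurableSet,
      Measure.restrict_restrict hC.measurableSet]
    have : IsFiniteMeasure (volume.restrict (C ∩ Ω)) := isFiniteMeasure_restrict.2
      ((measure_mono inter_subset_left).trans_lt hC.measure_lt_top).ne
    exact MemLp.of_bound (hφm.mono_set inter_subset_right) b (Eventually.of_forall hb)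
  have hG2 : MemLp Gφ 2 (volume.restrict O) := by
    rw [memLp_two_iff_integrable_sq_norm hs.2.1.aestronglyMeasurable]
    refine ⟨hs.2.1.aestronglyMeasurable.norm.pow 2, ?_⟩
    rw [hasFiniteIntegral_iff_enorm]
    refine lt_of_le_of_lt (le_of_eq ?_) hfin
    have hCm : MeasurableSet C := hC.measurableSet
    rw [← lintegral_indicator hOm]
    have e : (C \ P.K : Set ℂ) = C ∩ O := ext fun x =>
      ⟨fun hx => ⟨hx.1, hV (hCV hx.1), hx.2⟩, fun hx => ⟨hx.1, hx.2.2⟩⟩
    rw [e, ← lintegral_indicator (hCm.inter hOm)]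
    refine lintegral_congr fun x => ?_
    by_cases hxO : x ∈ O
    · by_cases hxC : x ∈ C
      · simp [indicator_of_mem, hxO, hxC, enorm_pow]
      · simp [indicator_of_mem, hxO, hxC, (h0 x hxC).2]
    · simp [hxO]
  have hu2 : MemLp (fun x => P.u x - g x) 2 (volume.restrict (ball c R \ P.K)) :=
    ((P.memL2.mono_measure (Measure.restrict_mono hV le_rfl)).sub
      (memLp_datum hg hV measure_ball_lt_top.ne)).mono_measure
        (Measure.restrict_mono sdiff_subset le_rfl)
  set D := ball c R \ P.K with hD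
  have hDO : D ⊆ O := Set.sdiff_subset_sdiff_left hV
  have hφD : MemLp φ 2 (volume.restrict D) :=
    hφ2.mono_measure (Measure.restrict_mono (sdiff_subset.trans hV) le_rfl)
  have hGD : MemLp P.G 2 (volume.restrict D) :=
    P.gradL2.mono_measure (Measure.restrict_mono hDO le_rfl)
  have hGφD : MemLp Gφ 2 (volume.restrict D) :=
    hG2.mono_measure (Measure.restrict_mono hDO le_rfl)
  have hi1 : IntegrableOn (fun x => ⟪P.G x, Gφ x⟫ + (P.u x - g x) * φ x) D := by
    refine Integrable.add ?_ (hu2.integrable_mul hφD)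
    refine Integrable.mono' (g := fun x => ‖P.G x‖ * ‖Gφ x‖) (hGD.norm.integrable_mul hGφD.norm)
      (hGD.1.inner hGφD.1) (Eventually.of_forall fun x => ?_)
    rw [Real.norm_eq_abs]
    exact abs_real_inner_le_norm _ _
  have hi2 : IntegrableOn (fun x => ‖Gφ x‖ ^ 2 + φ x ^ 2) D :=
    ((memLp_two_iff_integrable_sq_norm hGφD.1).1 hGφD).add
      ((memLp_two_iff_integrable_sq hφD.1).1 hφD)
  have hi0 := integrableOn_msDens hg P hV measure_ball_lt_top.ne
  set b' := ∫ x in D, (⟪P.G x, Gφ x⟫ + (P.u x - g x) * φ x)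
  set c' := ∫ x in D, (‖Gφ x‖ ^ 2 + φ x ^ 2)
  have key : ∀ ε : ℝ, 0 ≤ 2 * ε * b' + ε ^ 2 * c' := by
    intro ε
    have hle := hmin.integral_le hg hR hsub (Q := P.vary φ Gφ ε hs hφ2 hG2) rfl hC hCV (by
      filter_upwards [ae_restrict_mem (hΩ.diff hC.measurableSet)] with x hx
      simp [Admissible.vary, (h0 x hx.2).1])
    have e : ∀ x, msDens g (P.vary φ Gφ ε hs hφ2 hG2) x = msDens g P x +
        (2 * ε * (⟪P.G x, Gφ x⟫ + (P.u x - g x) * φ x) + ε ^ 2 * (‖Gφ x‖ ^ 2 + φ x ^ 2)) := by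
      intro x
      simp only [msDens, Admissible.vary]
      rw [norm_add_sq_real, real_inner_smul_right, norm_smul, mul_pow, Real.norm_eq_abs, sq_abs]
      ring
    simp only [e] at hle
    rw [integral_add hi0 ((hi1.const_mul (2 * ε)).fun_add (hi2.const_mul (ε ^ 2))),
      integral_add (hi1.const_mul (2 * ε)) (hi2.const_mul (ε ^ 2)), integral_const_mul,
      integral_const_mul] at hle
    linarith
  have hb0 : b' = 0 := by
    have hc : 0 ≤ c' := integral_nonneg fun x => by positivity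
    have := key (-b' / (c' + 1))
    field_simp at this
    nlinarith
  rw [← hb0]
  refine setIntegral_eq_of_subset_of_forall_sdiff_eq_zero hOm hDO fun x hx => ?_
  have hxC : x ∉ C := fun h' => hx.2 ⟨hCV h', hx.1.2⟩
  simp [(h0 x hxC).1, (h0 x hxC).2]

end Vale.Agent.P128.Bridge
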