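import Vale.Agent.P128.Basic

/-!
# P128: Weyl's lemma in the plane

A locally integrable function on an open set that integrates every Laplacian of a test function to
zero is almost everywhere equal to a harmonic function. The mollifiers are radial; the difference
of two of them is the Laplacian of an explicit compactly supported radial function, so the
regularisations do not depend on the radius.
-/

open MeasureTheory Set Metric Filter InnerProductSpace
open scoped ENNReal Topology Real RealInnerProductSpace ContDiff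

noncomputable section

namespace Vale.Agent.P128.Bridge.RegW

/-! ### The profile -/

/-- A smooth positive function equal to one up to `1/2` and to the identity from `1` on. -/
def den (w : ℝ) : ℝ := 1 + (w - 1) * Real.smoothTransition (2 * w - 1)

lemma den_pos (w : ℝ) : 0 < den w := by
  have h0 := Real.smoothTransition.nonneg (2 * w - 1)
  have h1 := Real.smoothTransition.le_one (2 * w - 1)
  unfold den
  rcases le_or_gt w (1 / 2) with h | h
  · rw [Real.smoothTransition.zero_of_nonpos (by linarith)]; simp
  · rcases le_or_gt 1 w with h' | h' <;> nlinarith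

lemma den_of_one_le {w : ℝ} (h : 1 ≤ w) : den w = w := by
  rw [den, Real.smoothTransition.one_of_one_le (by linarith)]; ring

lemma contDiff_den : ContDiff ℝ ∞ den := by
  unfold den
  exact contDiff_const.add ((contDiff_id.sub contDiff_const).mul
    (Real.smoothTransition.contDiff.comp ((contDiff_const.mul contDiff_id).sub contDiff_const)))

/-- The inverse of `den`. -/
def prof (w : ℝ) : ℝ := (den w)⁻¹

lemma contDiff_prof : ContDiff ℝ ∞ prof := contDiff_den.inv fun w => (den_pos w).ne'

lemma prof_of_one_le {w : ℝ} (h : 1 ≤ w) : prof w = w⁻¹ := by rw [prof, den_of_one_le h]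

lemma hasDerivAt_prof (w : ℝ) : HasDerivAt prof (deriv prof w) w :=
  (contDiff_prof.differentiable (by simp) w).hasDerivAt

/-- The mollifying profile, the derivative of `w * prof w`. -/
def rho (w : ℝ) : ℝ := prof w + w * deriv prof w

lemma contDiff_rho : ContDiff ℝ ∞ rho :=
  contDiff_prof.add (contDiff_id.mul (contDiff_infty_iff_deriv.1 contDiff_prof).2)

lemma hasDerivAt_mul_prof (w : ℝ) : HasDerivAt (fun x => x * prof x) (rho w) w :=
  ((hasDerivAt_id w).mul (hasDerivAt_prof w)).congr_deriv (by simp [rho])

lemma rho_of_one_lt {w : ℝ} (h : 1 < w) : rho w = 0 := by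
  refine (hasDerivAt_mul_prof w).unique ((hasDerivAt_const w (1 : ℝ)).congr_of_eventuallyEq ?_)
  filter_upwards [Ioi_mem_nhds h] with x hx
  have hx' : (1 : ℝ) < x := hx
  rw [prof_of_one_le hx'.le, mul_inv_cancel₀ (by linarith)]

/-- A primitive of `prof`. -/
def primProf (w : ℝ) : ℝ := ∫ x in (0 : ℝ)..w, prof x

lemma hasDerivAt_primProf (w : ℝ) : HasDerivAt primProf (prof w) w :=
  contDiff_prof.continuous.integral_hasStrictDerivAt 0 w |>.hasDerivAt

lemma contDiff_primProf : ContDiff ℝ ∞ primProf :=
  contDiff_infty_iff_deriv.2 ⟨fun w => (hasDerivAt_primProf w).differentiableAt, by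
    rw [show deriv primProf = prof from funext fun w => (hasDerivAt_primProf w).deriv]
    exact contDiff_prof⟩

/-- The radial potential of the difference of two mollifiers, as a function of the squared
distance. -/
def radPot (t T s : ℝ) : ℝ :=
  (primProf (T * s) - primProf (t * s) - (primProf (T / t) - primProf 1)) / 4

/-- The derivative of `radPot`. -/
def radPot' (t T s : ℝ) : ℝ := (T * prof (T * s) - t * prof (t * s)) / 4

lemma hasDerivAt_radPot (t T s : ℝ) : HasDerivAt (radPot t T) (radPot' t T s) s := by
  have h : ∀ a, HasDerivAt (fun s => primProf (a * s)) (prof (a * s) * a) s := fun a =>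
    (hasDerivAt_primProf (a * s)).comp s ((hasDerivAt_id s).const_mul a |>.congr_deriv (by simp))
  exact ((((h T).sub (h t)).sub_const _).div_const 4).congr_deriv (by simp [radPot']; ring)

lemma hasDerivAt_radPot' (t T s : ℝ) : HasDerivAt (radPot' t T)
    ((T ^ 2 * deriv prof (T * s) - t ^ 2 * deriv prof (t * s)) / 4) s := by
  have h : ∀ a, HasDerivAt (fun s => a * prof (a * s)) (a * (deriv prof (a * s) * a)) s := fun a =>
    ((hasDerivAt_prof (a * s)).comp s
      ((hasDerivAt_id s).const_mul a |>.congr_deriv (by simp))).const_mul a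
  exact (((h T).sub (h t)).div_const 4).congr_deriv (by ring)

lemma radPot_eq_zero {t T s : ℝ} (ht : 0 < t) (hT : t ≤ T) (hs : 1 ≤ t * s) :
    radPot t T s = 0 := by
  have hst : 1 / t ≤ s := by rw [div_le_iff₀ ht]; linarith
  have h := constant_of_has_deriv_right_zero (f := radPot t T) (a := 1 / t) (b := s)
    (fun x _ => (hasDerivAt_radPot t T x).continuousAt.continuousWithinAt)
    (fun x hx => by
      have hx0 : 0 < x := (one_div_pos.2 ht).trans_le hx.1
      have h1 : 1 ≤ t * x := by
        have := mul_le_mul_of_nonneg_left hx.1 ht.le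
        rwa [mul_one_div_cancel ht.ne'] at this
      have h2 : 1 ≤ T * x := h1.trans (mul_le_mul_of_nonneg_right hT hx0.le)
      have h3 : radPot' t T x = 0 := by
        have : 0 < T := ht.trans_le hT
        rw [radPot', prof_of_one_le h1, prof_of_one_le h2]
        field_simp
        ring
      simpa [h3] using (hasDerivAt_radPot t T x).hasDerivWithinAt (s := Ici x))
    s ⟨hst, le_rfl⟩
  rw [h, radPot, mul_one_div_cancel ht.ne', show T * (1 / t) = T / t by ring]
  ring

lemma contDiff_radPot (t T : ℝ) : ContDiff ℝ ∞ (radPot t T) := by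
  unfold radPot
  exact (((contDiff_primProf.comp (contDiff_const.mul contDiff_id)).sub
    (contDiff_primProf.comp (contDiff_const.mul contDiff_id))).sub contDiff_const).div_const _

/-! ### Laplacians -/

/-- The Laplacian by iterated partial derivatives. -/
def lap (f : ℂ → ℝ) (z : ℂ) : ℝ :=
  fderiv ℝ (fun w => fderiv ℝ f w 1) z 1 +
    fderiv ℝ (fun w => fderiv ℝ f w Complex.I) z Complex.I

lemma laplacian_eq_lap {f : ℂ → ℝ} {z : ℂ} (hf : ContDiffAt ℝ 2 f z) :
    Laplacian.laplacian f z = lap f z := by
  have h : DifferentiableAt ℝ (fderiv ℝ f) z :=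
    (hf.fderiv_right (m := 1) le_rfl).differentiableAt one_ne_zero
  have e : ∀ v, fderiv ℝ (fun w => fderiv ℝ f w v) z v = fderiv ℝ (fderiv ℝ f) z v v := fun v => by
    rw [fderiv_clm_apply h (differentiableAt_const v)]; simp
  simp [laplacian_eq_iteratedFDeriv_complexPlane, lap, iteratedFDeriv_two_apply, e]

/-- The potential centred at `x`. -/
def pot (t T : ℝ) (x y : ℂ) : ℝ := radPot t T (‖y - x‖ ^ 2)

lemma contDiff_pot (t T : ℝ) (x : ℂ) : ContDiff ℝ ∞ (pot t T x) :=
  (contDiff_radPot t T).comp ((contDiff_id.sub contDiff_const).norm_sq ℝ)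

lemma hasFDerivAt_sqDist (x y : ℂ) :
    HasFDerivAt (fun w => ‖w - x‖ ^ 2) (2 • innerSL ℝ (y - x)) y := by
  refine ((hasStrictFDerivAt_norm_sq (y - x)).hasFDerivAt.comp y
    ((hasFDerivAt_id y).sub_const x)).congr_fderiv ?_
  ext v
  simp

lemma fderiv_pot (t T : ℝ) (x y v : ℂ) :
    fderiv ℝ (pot t T x) y v = radPot' t T (‖y - x‖ ^ 2) * (2 * ⟪v, y - x⟫) := by
  rw [show pot t T x = radPot t T ∘ fun w => ‖w - x‖ ^ 2 from rfl,
    ((hasDerivAt_radPot t T _).comp_hasFDerivAt y (hasFDerivAt_sqDist x y)).fderiv]
  simp [real_inner_comm v, mul_comm]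
  left
  ring

lemma lap_pot (t T : ℝ) (x y : ℂ) :
    lap (pot t T x) y = T * rho (T * ‖y - x‖ ^ 2) - t * rho (t * ‖y - x‖ ^ 2) := by
  set s := ‖y - x‖ ^ 2 with hs
  set D := (T ^ 2 * deriv prof (T * s) - t ^ 2 * deriv prof (t * s)) / 4
  have h2 : ∀ v, fderiv ℝ (fun w => fderiv ℝ (pot t T x) w v) y v =
      D * (2 * ⟪v, y - x⟫) * (2 * ⟪v, y - x⟫) + radPot' t T s * (2 * ⟪v, v⟫) := by
    intro v
    simp only [fderiv_pot]
    have ha : HasFDerivAt (fun w => radPot' t T (‖w - x‖ ^ 2)) (D • (2 • innerSL ℝ (y - x))) y :=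
      (hasDerivAt_radPot' t T _).comp_hasFDerivAt y (hasFDerivAt_sqDist x y)
    have hb : HasFDerivAt (fun w => 2 * ⟪v, w - x⟫) ((2 : ℝ) • innerSL ℝ v) y :=
      (((innerSL ℝ v).hasFDerivAt.comp y ((hasFDerivAt_id y).sub_const x)).const_mul 2).congr_fderiv
        (by ext u; simp)
    rw [(ha.fun_mul hb).fderiv]
    simp [real_inner_comm v, ← hs]
    ring
  rw [lap, h2, h2]
  have hsq : s = (y - x).re ^ 2 + (y - x).im ^ 2 := by
    rw [hs, Complex.sq_norm, Complex.normSq_apply]; ring
  simp only [Complex.inner, map_one, mul_one, Complex.conj_I, Complex.one_re,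
    mul_neg, Complex.neg_re, Complex.mul_I_re, Complex.I_mul_I, neg_neg]
  simp only [rho, radPot', D]
  rw [hsq]
  ring

/-! ### Mollifiers -/

/-- The radial mollifier of radius `r`. -/
def kern (r : ℝ) (x : ℂ) : ℝ := rho (‖x‖ ^ 2 / r ^ 2) / (π * r ^ 2)

lemma contDiff_kern (r : ℝ) : ContDiff ℝ ∞ (kern r) :=
  (contDiff_rho.comp ((contDiff_id.norm_sq ℝ).div_const _)).div_const _

lemma kern_eq_zero {r : ℝ} (hr : 0 < r) {x : ℂ} (h : r < ‖x‖) : kern r x = 0 := by
  rw [kern, rho_of_one_lt, zero_div]
  rw [one_lt_div (by positivity)]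
  exact pow_lt_pow_left₀ h hr.le two_ne_zero

lemma hasCompactSupport_kern {r : ℝ} (hr : 0 < r) : HasCompactSupport (kern r) :=
  HasCompactSupport.intro (isCompact_closedBall 0 r) fun x hx => kern_eq_zero hr (by
    simpa using hx)

lemma kern_comm (r : ℝ) (x y : ℂ) : kern r (x - y) = kern r (y - x) := by
  simp [kern, norm_sub_rev]

lemma integral_kern_one : ∫ x, kern 1 x = 1 := by
  rw [← Complex.integral_comp_polarCoord_symm, polarCoord_target, Measure.volume_eq_prod]
  have e : ∀ p ∈ Ioi (0 : ℝ) ×ˢ Ioo (-π) π,
      p.1 • kern 1 (Complex.polarCoord.symm p) = p.1 * rho (p.1 ^ 2) / π * (1 : ℝ) := by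
    intro p hp
    have : ‖Complex.polarCoord.symm p‖ = p.1 := by
      rw [Complex.norm_polarCoord_symm, abs_of_pos hp.1]
    rw [smul_eq_mul, kern, this]
    simp
    ring
  rw [setIntegral_congr_fun (measurableSet_Ioi.prod measurableSet_Ioo) e,
    setIntegral_prod_mul (fun r : ℝ => r * rho (r ^ 2) / π) (fun _ : ℝ => (1 : ℝ))]
  have hd : ∀ r ∈ Ici (0 : ℝ),
      HasDerivAt (fun r => r ^ 2 * prof (r ^ 2) / (2 * π)) (r * rho (r ^ 2) / π) r := fun r _ =>
    (((hasDerivAt_mul_prof (r ^ 2)).comp r (hasDerivAt_pow 2 r)).div_const (2 * π)).congr_deriv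
      (by simp; field_simp)
  have hcont : Continuous fun r : ℝ => r * rho (r ^ 2) / π :=
    (continuous_id.mul (contDiff_rho.continuous.comp (continuous_pow 2))).div_const _
  have hint : IntegrableOn (fun r : ℝ => r * rho (r ^ 2) / π) (Ioi 0) :=
    (hcont.integrable_of_hasCompactSupport (HasCompactSupport.intro isCompact_Icc
      (K := Icc (-2) 2) fun r hr => by
        simp only [mem_Icc, not_and_or, not_le] at hr
        rw [rho_of_one_lt (by rcases hr with hr | hr <;> nlinarith)]
        simp)).integrableOn
  have ht : Tendsto (fun r : ℝ => r ^ 2 * prof (r ^ 2) / (2 * π)) atTop (𝓝 (1 / (2 * π))) := by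
    refine tendsto_const_nhds.congr' ?_
    filter_upwards [eventually_ge_atTop 1] with r hr
    have : (1 : ℝ) ≤ r ^ 2 := one_le_pow₀ hr
    rw [prof_of_one_le this, mul_inv_cancel₀ (by positivity)]
  rw [integral_Ioi_of_hasDerivAt_of_tendsto' hd hint ht]
  simp
  field_simp
  rw [max_eq_left (by positivity)]
  ring

/-- The regularisation of `f`. -/
def moll (r : ℝ) (f : ℂ → ℝ) (x : ℂ) : ℝ := ∫ y, f y * kern r (y - x)

lemma contDiff_moll {r : ℝ} (hr : 0 < r) {f : ℂ → ℝ} (hf : Integrable f) :
    ContDiff ℝ ∞ (moll r f) := by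
  have : moll r f =
      MeasureTheory.convolution f (kern r) (ContinuousLinearMap.mul ℝ ℝ) volume := by
    funext x
    simp [moll, convolution_def, kern_comm r x]
  rw [this]
  exact (hasCompactSupport_kern hr).contDiff_convolution_right _ hf.locallyIntegrable
    (contDiff_kern r)

lemma exists_abs_rho_le : ∃ M, ∀ w, 0 ≤ w → |rho w| ≤ M := by
  obtain ⟨M, hM⟩ := (isCompact_Icc (a := (0 : ℝ)) (b := 1)).exists_bound_of_continuousOn
    contDiff_rho.continuous.continuousOn
  refine ⟨max M 0, fun w hw => ?_⟩
  rcases le_or_gt w 1 with h | h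
  · exact le_max_of_le_left (by simpa using hM w ⟨hw, h⟩)
  · simp [rho_of_one_lt h]

/-- Regularisations of a test function converge to it, boundedly. -/
lemma moll_test {ψ : ℂ → ℝ} (hψ : Continuous ψ) (hs : HasCompactSupport ψ) :
    (∃ M, ∀ r, 0 < r → ∀ x, |moll r ψ x| ≤ M) ∧
      ∀ x, Tendsto (fun r => moll r ψ x) (𝓝[>] 0) (𝓝 (ψ x)) := by
  obtain ⟨A, hA⟩ := hψ.bounded_above_of_compact_support hs
  have hk : Integrable (kern 1) :=
    (contDiff_kern 1).continuous.integrable_of_hasCompactSupport (hasCompactSupport_kern one_pos)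
  have e : ∀ r, 0 < r → ∀ x, moll r ψ x = ∫ z, ψ (x + r • z) * kern 1 z := by
    intro r hr x
    have h1 : moll r ψ x = ∫ z, ψ (x + z) * kern r z := by
      rw [moll, ← integral_add_right_eq_self (fun y => ψ y * kern r (y - x)) x]
      simp [add_comm x]
    rw [h1]
    have h2 := Measure.integral_comp_smul (volume : Measure ℂ) (fun z => ψ (x + z) * kern r z) r
    simp only [Complex.finrank_real_complex, smul_eq_mul] at h2
    rw [abs_of_pos (by positivity)] at h2
    have h3 : ∀ z, ψ (x + r • z) * kern r (r • z) = ψ (x + r • z) * kern 1 z * (r ^ 2)⁻¹ := by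
      intro z
      rw [kern, kern, norm_smul, Real.norm_eq_abs, mul_pow, sq_abs]
      field_simp
    simp only [h3, integral_mul_const, mul_comm (r ^ 2)⁻¹] at h2
    exact (mul_right_cancel₀ (by positivity) h2).symm
  refine ⟨⟨A * ∫ z, |kern 1 z|, fun r hr x => ?_⟩, fun x => ?_⟩
  · rw [e r hr, ← integral_const_mul, ← Real.norm_eq_abs]
    refine norm_integral_le_of_norm_le (hk.abs.const_mul A) (Eventually.of_forall fun z => ?_)
    rw [norm_mul]
    exact mul_le_mul_of_nonneg_right (hA _) (norm_nonneg _)
  · have lim : ψ x = ∫ z, ψ (x + (0 : ℝ) • z) * kern 1 z := by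
      simp [integral_const_mul, integral_kern_one]
    rw [lim]
    refine (tendsto_integral_filter_of_dominated_convergence
      (F := fun r z => ψ (x + r • z) * kern 1 z) (fun z => A * |kern 1 z|) ?_ ?_
      (hk.abs.const_mul A) ?_).congr' ?_
    · exact Eventually.of_forall fun r =>
        ((hψ.comp (by fun_prop)).mul (contDiff_kern 1).continuous).aestronglyMeasurable
    · exact Eventually.of_forall fun r => Eventually.of_forall fun z => by
        rw [norm_mul]
        exact mul_le_mul_of_nonneg_right (hA _) (norm_nonneg _)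
    · exact Eventually.of_forall fun z =>
        (((hψ.comp (by fun_prop : Continuous fun r : ℝ => x + r • z)).tendsto 0).mono_left
          nhdsWithin_le_nhds).mul_const _
    · filter_upwards [self_mem_nhdsWithin] with r hr
      exact (e r hr x).symm

/-! ### The lemma -/

/-- Integration by parts against a test function supported where `f` is smooth. -/
lemma integral_mul_fderiv {U : Set ℂ} (hU : IsOpen U) {f g : ℂ → ℝ} (hf : ContDiffOn ℝ 1 f U)
    (hg : ContDiff ℝ 1 g) (hgc : HasCompactSupport g) (hgs : tsupport g ⊆ U) (v : ℂ) :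
    ∫ x, f x * fderiv ℝ g x v = -∫ x, fderiv ℝ f x v * g x := by
  have key : ∀ (a b : ℂ → ℝ), ContinuousOn a U → Continuous b → (∀ x ∉ tsupport g, b x = 0) →
      Integrable (fun x => a x * b x) := fun a b ha hb hb0 => by
    refine (integrableOn_iff_integrable_of_support_subset (s := tsupport g) ?_).1
      (((ha.mono hgs).mul hb.continuousOn).integrableOn_compact hgc)
    intro x hx
    by_contra h
    exact hx (by simp [hb0 x h])
  have g0 : ∀ x ∉ tsupport g, fderiv ℝ g x v = 0 := fun x hx => by
    rw [fderiv_of_notMem_tsupport ℝ hx]; simp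
  refine integral_mul_fderiv_eq_neg_fderiv_mul_of_integrable
    (key _ _ ((hf.continuousOn_fderiv_of_isOpen hU le_rfl).clm_apply continuousOn_const)
      hg.continuous fun x hx => image_eq_zero_of_notMem_tsupport hx)
    (key _ _ hf.continuousOn
      ((hg.continuous_fderiv one_ne_zero).clm_apply continuous_const) g0)
    (key _ _ hf.continuousOn hg.continuous fun x hx => image_eq_zero_of_notMem_tsupport hx)
    (fun x hx => (hf.contDiffAt (hU.mem_nhds (hgs hx))).differentiableAt one_ne_zero)
    (fun x _ => hg.differentiable one_ne_zero x)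

/-- `f` integrates the Laplacians of test functions in `U` to zero. -/
def WeakHarmonic (U : Set ℂ) (f : ℂ → ℝ) : Prop :=
  ∀ φ : ℂ → ℝ, ContDiff ℝ ∞ φ → HasCompactSupport φ → tsupport φ ⊆ U → ∫ z, f z * lap φ z = 0

lemma tsupport_fderiv_apply (φ : ℂ → ℝ) (v : ℂ) :
    tsupport (fun w => fderiv ℝ φ w v) ⊆ tsupport φ := by
  refine closure_minimal (fun w hw => ?_) (isClosed_tsupport φ)
  by_contra h
  exact hw (by simp [fderiv_of_notMem_tsupport ℝ h])

lemma lap_eq_zero_of_notMem {φ : ℂ → ℝ} {z : ℂ} (hz : z ∉ tsupport φ) : lap φ z = 0 := by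
  have h : ∀ v, fderiv ℝ (fun w => fderiv ℝ φ w v) z = 0 := fun v =>
    fderiv_of_notMem_tsupport ℝ fun h => hz (tsupport_fderiv_apply φ v h)
  simp [lap, h]

/-- Weyl's lemma near a point. -/
lemma weyl_local {U : Set ℂ} {u : ℂ → ℝ} (hu : LocallyIntegrableOn u U) (hw : WeakHarmonic U u)
    {a : ℂ} {R : ℝ} (hR : 0 < R) (hball : closedBall a (3 * R) ⊆ U) :
    ∃ h : ℂ → ℝ, HarmonicOnNhd h (ball a R) ∧ ∀ᵐ z, z ∈ ball a R → u z = h z := by
  set f := (closedBall a (3 * R)).indicator u with hf
  have hfi : Integrable f := (integrable_indicator_iff measurableSet_closedBall).2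
    (hu.integrableOn_compact_subset hball (isCompact_closedBall _ _))
  have hindep : ∀ x ∈ ball a R, ∀ r, 0 < r → r ≤ R → moll r f x = moll R f x := by
    intro x hx r hr hrR
    set t := 1 / R ^ 2
    set T := 1 / r ^ 2
    have ht : 0 < t := by positivity
    have hT : t ≤ T := by
      refine div_le_div_of_nonneg_left zero_le_one (by positivity) ?_
      exact pow_le_pow_left₀ hr.le hrR 2
    have hsupp : ∀ y, R ≤ ‖y - x‖ → pot t T x y = 0 := fun y hy => by
      refine radPot_eq_zero ht hT ?_
      rw [div_mul_eq_mul_div, one_mul, one_le_div (by positivity)]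
      exact pow_le_pow_left₀ hR.le hy 2
    have hts : tsupport (pot t T x) ⊆ closedBall x R := by
      refine closure_minimal (fun y hy => ?_) isClosed_closedBall
      by_contra h
      refine hy (hsupp y ?_)
      rw [mem_closedBall, not_le, dist_eq_norm] at h
      exact h.le
    have hsub : closedBall x R ⊆ closedBall a (3 * R) :=
      closedBall_subset_closedBall' (by linarith [mem_ball.1 hx])
    have hcs : HasCompactSupport (pot t T x) :=
      HasCompactSupport.of_support_subset_isCompact (isCompact_closedBall x R)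
        (subset_tsupport _ |>.trans hts)
    have h0 := hw _ (contDiff_pot t T x) hcs (hts.trans (hsub.trans hball))
    have e : (fun y => u y * lap (pot t T x) y) =
        fun y => π * (f y * kern r (y - x)) - π * (f y * kern R (y - x)) := by
      funext y
      have e1 : lap (pot t T x) y = π * kern r (y - x) - π * kern R (y - x) := by
        rw [lap_pot]
        simp only [kern, t, T]
        field_simp
      by_cases hy : y ∈ closedBall a (3 * R)
      · rw [hf, indicator_of_mem hy, e1]; ring
      · rw [hf, indicator_of_notMem hy,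
          lap_eq_zero_of_notMem fun h => hy (hsub (hts h))]
        simp
    have hint : ∀ s, 0 < s → Integrable fun y => π * (f y * kern s (y - x)) := fun s hs => by
      obtain ⟨C, hC⟩ := ((contDiff_kern s).continuous).bounded_above_of_compact_support
        (hasCompactSupport_kern hs)
      exact (hfi.mul_bdd (c := C) (((contDiff_kern s).continuous.comp
        (continuous_id.sub continuous_const)).aestronglyMeasurable)
        (Eventually.of_forall fun y => hC _)).const_mul π
    rw [e, integral_sub (hint r hr) (hint R hR), integral_const_mul, integral_const_mul] at h0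
    have := mul_left_cancel₀ Real.pi_ne_zero (sub_eq_zero.1 h0)
    exact this
  set h := moll R f with hh
  have hsm : ContDiff ℝ ∞ h := contDiff_moll hR hfi
  have hae : ∀ᵐ z, z ∈ ball a R → u z = h z := by
    have main : ∀ᵐ z, z ∈ ball a R → f z - h z = 0 := by
      refine isOpen_ball.ae_eq_zero_of_integral_contDiff_smul_eq_zero
        ((hfi.locallyIntegrable.sub hsm.continuous.locallyIntegrable).locallyIntegrableOn _)
        fun ψ hψ hψc hψs => ?_
      obtain ⟨⟨M, hM⟩, hlim⟩ := moll_test hψ.continuous hψc
      have i1 : Integrable fun z => ψ z * f z := by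
        obtain ⟨C, hC⟩ := hψ.continuous.bounded_above_of_compact_support hψc
        exact hfi.bdd_mul hψ.continuous.aestronglyMeasurable (Eventually.of_forall hC)
      have i2 : Integrable fun z => ψ z * h z :=
        (hψ.continuous.mul hsm.continuous).integrable_of_hasCompactSupport hψc.mul_right
      simp only [smul_eq_mul, mul_sub]
      rw [integral_sub i1 i2, sub_eq_zero]
      have hlim' : Tendsto (fun r => ∫ y, f y * moll r ψ y) (𝓝[>] 0) (𝓝 (∫ y, f y * ψ y)) := by
        refine tendsto_integral_filter_of_dominated_convergence (fun y => |f y| * M) ?_ ?_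
          (hfi.abs.mul_const M) (Eventually.of_forall fun y => (hlim y).const_mul _)
        · filter_upwards [self_mem_nhdsWithin] with r hr
          exact hfi.aestronglyMeasurable.mul (contDiff_moll hr
            (hψ.continuous.integrable_of_hasCompactSupport hψc)).continuous.aestronglyMeasurable
        · filter_upwards [self_mem_nhdsWithin] with r hr
          refine Eventually.of_forall fun y => ?_
          rw [norm_mul]
          exact mul_le_mul_of_nonneg_left (hM r hr y) (norm_nonneg _)
      have hconst : ∀ᶠ r in 𝓝[>] (0 : ℝ), ∫ y, f y * moll r ψ y = ∫ z, ψ z * h z := by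
        filter_upwards [Ioc_mem_nhdsGT hR] with r hr
        have hsw : ∫ y, f y * moll r ψ y = ∫ z, ψ z * moll r f z := by
          have hi : Integrable (fun q : ℂ × ℂ => f q.1 * ψ q.2 * kern r (q.2 - q.1))
              (volume.prod volume) := by
            obtain ⟨C, hC⟩ := ((contDiff_kern r).continuous).bounded_above_of_compact_support
              (hasCompactSupport_kern hr.1)
            exact (hfi.mul_prod (hψ.continuous.integrable_of_hasCompactSupport hψc)).mul_bdd
              (c := C) (((contDiff_kern r).continuous.comp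
                (continuous_snd.sub continuous_fst)).aestronglyMeasurable)
              (Eventually.of_forall fun q => hC _)
          calc ∫ y, f y * moll r ψ y
              = ∫ y, ∫ z, f y * ψ z * kern r (z - y) := by
                simp only [moll, ← integral_const_mul, mul_assoc]
            _ = ∫ z, ∫ y, f y * ψ z * kern r (z - y) := integral_integral_swap hi
            _ = ∫ z, ψ z * moll r f z := by
                simp only [moll, ← integral_const_mul]
                refine integral_congr_ae (Eventually.of_forall fun z => ?_)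
                refine integral_congr_ae (Eventually.of_forall fun y => ?_)
                simp only [kern_comm r z y]
                ring
        rw [hsw]
        refine integral_congr_ae (Eventually.of_forall fun z => ?_)
        by_cases hz : z ∈ ball a R
        · simp only [hindep z hz r hr.1 hr.2, h]
        · simp [image_eq_zero_of_notMem_tsupport fun hz' => hz (hψs hz')]
      have := tendsto_nhds_unique hlim'
        (tendsto_const_nhds.congr' (hconst.mono fun r hr => hr.symm))
      rw [← this]
      exact integral_congr_ae (Eventually.of_forall fun z => mul_comm _ _)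
    filter_upwards [main] with z hz hzb
    rw [← sub_eq_zero, ← hz hzb, hf,
      indicator_of_mem
        (ball_subset_closedBall.trans (closedBall_subset_closedBall (by linarith)) hzb)]
  refine ⟨h, ?_, hae⟩
  have h2 : ContDiff ℝ 2 h := hsm.of_le (WithTop.coe_le_coe.2 le_top)
  have hd : ∀ v, ContDiff ℝ 1 fun w => fderiv ℝ h w v := fun v =>
    (h2.fderiv_right le_rfl).clm_apply contDiff_const
  have hlc : Continuous (lap h) :=
    (((hd 1).continuous_fderiv one_ne_zero).clm_apply continuous_const).add
      (((hd Complex.I).continuous_fderiv one_ne_zero).clm_apply continuous_const)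
  have h0 : ∀ᵐ z, z ∈ ball a R → lap h z = 0 := by
    refine isOpen_ball.ae_eq_zero_of_integral_contDiff_smul_eq_zero
      (hlc.locallyIntegrable.locallyIntegrableOn _) fun ψ hψ hψc hψs => ?_
    have hψ1 : ContDiff ℝ 1 ψ := hψ.of_le (WithTop.coe_le_coe.2 le_top)
    have hψd : ∀ v, ContDiff ℝ ∞ fun w => fderiv ℝ ψ w v := fun v =>
      (hψ.fderiv_right le_rfl).clm_apply contDiff_const
    have e1 : ∀ v, ∫ z, ψ z * fderiv ℝ (fun w => fderiv ℝ h w v) z v =
        ∫ z, h z * fderiv ℝ (fun w => fderiv ℝ ψ w v) z v := by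
      intro v
      have a1 := integral_mul_fderiv isOpen_univ (hd v).contDiffOn hψ1 hψc (subset_univ _) v
      have a2 := integral_mul_fderiv isOpen_univ
        (hsm.of_le (WithTop.coe_le_coe.2 le_top)).contDiffOn
        ((hψd v).of_le (WithTop.coe_le_coe.2 le_top)) (hψc.fderiv_apply ℝ v) (subset_univ _) v
      rw [a2, a1, neg_neg]
      exact integral_congr_ae (Eventually.of_forall fun z => mul_comm _ _)
    have hI : ∀ (g : ℂ → ℝ) (v : ℂ), Continuous g →
        Integrable fun z => g z * fderiv ℝ (fun w => fderiv ℝ ψ w v) z v := fun g v hg =>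
      (hg.mul (((hψd v).continuous_fderiv (by simp)).clm_apply
        continuous_const)).integrable_of_hasCompactSupport
          ((hψc.fderiv_apply ℝ v).fderiv_apply ℝ v).mul_left
    have hJ : ∀ v, Integrable fun z => ψ z * fderiv ℝ (fun w => fderiv ℝ h w v) z v := fun v =>
      (hψ.continuous.mul (((hd v).continuous_fderiv one_ne_zero).clm_apply
        continuous_const)).integrable_of_hasCompactSupport hψc.mul_right
    simp only [smul_eq_mul, lap, mul_add]
    rw [integral_add (hJ 1) (hJ Complex.I), e1, e1,
      ← integral_add (hI _ _ hsm.continuous) (hI _ _ hsm.continuous)]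
    have h3 : ∫ z, u z * lap ψ z = ∫ z, h z * lap ψ z := by
      refine integral_congr_ae ?_
      filter_upwards [hae] with z hz
      by_cases hzb : z ∈ ball a R
      · rw [hz hzb]
      · simp [lap_eq_zero_of_notMem fun h' => hzb (hψs h')]
    rw [← hw ψ hψ hψc (hψs.trans ((ball_subset_closedBall.trans
      (closedBall_subset_closedBall (by linarith))).trans hball)), h3]
    simp only [lap, mul_add]
  have hEq : EqOn (lap h) (fun _ => 0) (ball a R) :=
    Measure.eqOn_open_of_ae_eq (μ := volume) ((ae_restrict_iff' measurableSet_ball).2 h0)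
      isOpen_ball
      hlc.continuousOn continuousOn_const
  intro z hz
  refine ⟨h2.contDiffAt, ?_⟩
  filter_upwards [isOpen_ball.mem_nhds hz] with w hw'
  rw [laplacian_eq_lap h2.contDiffAt, hEq hw']
  rfl

/-- **Weyl's lemma.** -/
theorem weyl {U : Set ℂ} (hU : IsOpen U) {u : ℂ → ℝ} (hu : LocallyIntegrableOn u U)
    (hw : WeakHarmonic U u) :
    ∃ h : ℂ → ℝ, HarmonicOnNhd h U ∧ ∀ᵐ z, z ∈ U → u z = h z := by
  classical
  have key : ∀ a : U, ∃ R : ℝ, 0 < R ∧ ∃ h : ℂ → ℝ, HarmonicOnNhd h (ball (a : ℂ) R) ∧
      ∀ᵐ z, z ∈ ball (a : ℂ) R → u z = h z := fun a => by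
    obtain ⟨ε, hε, hεU⟩ := Metric.isOpen_iff.1 hU a a.2
    exact ⟨ε / 6, by positivity, weyl_local hu hw (by positivity)
      ((closedBall_subset_ball (by linarith)).trans hεU)⟩
  choose R hR g hg hgae using key
  set h : ℂ → ℝ := fun z => if hz : z ∈ U then g ⟨z, hz⟩ z else 0 with hh
  have hloc : ∀ a : U, ∀ z ∈ ball (a : ℂ) (R a) ∩ U, h z = g a z := by
    intro a z hz
    set b : U := ⟨z, hz.2⟩
    have e : EqOn (g b) (g a) (ball (a : ℂ) (R a) ∩ ball (b : ℂ) (R b)) := by
      refine Measure.eqOn_open_of_ae_eq (μ := volume) ?_ (isOpen_ball.inter isOpen_ball)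
        ((hg b).continuousOn.mono inter_subset_right) ((hg a).continuousOn.mono inter_subset_left)
      refine (ae_restrict_iff' (measurableSet_ball.inter measurableSet_ball)).2 ?_
      filter_upwards [hgae a, hgae b] with w h1 h2 hw'
      rw [← h1 hw'.1, h2 hw'.2]
    rw [hh]
    simp only [hz.2, dite_true]
    exact e ⟨hz.1, mem_ball_self (hR b)⟩
  refine ⟨h, fun z hz => ?_, ?_⟩
  · refine (harmonicAt_congr_nhds ?_).2 (hg ⟨z, hz⟩ z (mem_ball_self (hR _)))
    filter_upwards [(isOpen_ball.inter hU).mem_nhds ⟨mem_ball_self (hR ⟨z, hz⟩), hz⟩] with w hw'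
    exact hloc ⟨z, hz⟩ w hw'
  · obtain ⟨T, hTc, hT⟩ := TopologicalSpace.isOpen_iUnion_countable
      (fun a : U => ball (a : ℂ) (R a)) fun a => isOpen_ball
    have hall : ∀ᵐ z, ∀ a ∈ T, z ∈ ball (a : ℂ) (R a) → u z = g a z :=
      (ae_ball_iff hTc).2 fun a _ => hgae a
    filter_upwards [hall] with z hz hzU
    have : z ∈ ⋃ a : U, ball (a : ℂ) (R a) := mem_iUnion.2 ⟨⟨z, hzU⟩, mem_ball_self (hR _)⟩
    rw [← hT] at this
    obtain ⟨a, haT, hza⟩ := mem_iUnion₂.1 this
    rw [hz a haT hza, hloc a z ⟨hza, hzU⟩]

end Vale.Agent.P128.Bridge.RegW
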